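import Mathlib

/-!
Turing reductions between Boolean sequences, presented through finite approximations.
-/

namespace Vale.Agent.P327

open Filter
open Nat.Partrec (Code)

/-- Boolean sequences. -/
abbrev Seq := ℕ → Bool

/-- The first `s` bits. -/
def pre (X : Seq) (s : ℕ) : List Bool := (List.range s).map X

@[simp] lemma pre_length (X : Seq) (s : ℕ) : (pre X s).length = s := by simp [pre]

lemma pre_getElem? (X : Seq) (s i : ℕ) :
    (pre X s)[i]? = if i < s then some (X i) else none := by
  simp only [pre, List.getElem?_map]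
  split_ifs with h
  · simp [h]
  · simp [h]

lemma pre_getI {X : Seq} {s i : ℕ} (h : i < s) : (pre X s).getI i = X i := by
  simp [pre, List.getI_eq_getElem, h]

lemma pre_take (X : Seq) {r s : ℕ} (h : r ≤ s) : (pre X s).take r = pre X r := by
  simp [pre, ← List.map_take, List.take_range, h]

lemma pre_eq_iff {X Y : Seq} {s : ℕ} : pre X s = pre Y s ↔ ∀ i < s, X i = Y i := by
  simp [pre]

/-- `l` is an initial segment of `X`. -/
def IsPre (l : List Bool) (X : Seq) : Prop := l = pre X l.length

lemma isPre_pre (X : Seq) (s : ℕ) : IsPre (pre X s) X := by simp [IsPre]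

lemma IsPre.getElem? {l : List Bool} {X : Seq} (h : IsPre l X) {i : ℕ} (hi : i < l.length) :
    l[i]? = some (X i) := by
  rw [h, pre_getElem?, if_pos hi]

lemma IsPre.getI {l : List Bool} {X : Seq} (h : IsPre l X) {i : ℕ} (hi : i < l.length) :
    l.getI i = X i := by
  rw [h, pre_getI hi]

lemma isPre_of_getElem? {l : List Bool} {X : Seq}
    (h : ∀ i (_ : i < l.length), l[i]? = some (X i)) : IsPre l X := by
  refine List.ext_getElem? fun i => ?_
  rw [pre_getElem?]
  split_ifs with hi
  · exact h i hi
  · simp [not_lt.mp hi]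

/-- Candidate outputs of the code `c`, in the order of the stage. -/
def hits (c : Code) (σ : List Bool) (n : ℕ) : List ℕ :=
  (List.range (σ.length + 1)).flatMap fun s =>
    (List.range (s + 1)).filterMap fun r =>
      Code.evaln s c (Nat.pair (Encodable.encode (σ.take r)) n)

/-- The value computed by `c` from the finite oracle `σ` at `n`. -/
def ev (c : Code) (σ : List Bool) (n : ℕ) : Option Bool :=
  (hits c σ n).head?.map fun v => decide (v ≠ 0)

lemma hits_pre_prefix (c : Code) (X : Seq) (n : ℕ) {s t : ℕ} (h : s ≤ t) :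
    hits c (pre X s) n <+: hits c (pre X t) n := by
  have e : ∀ u ≤ t, hits c (pre X u) n = (List.range (u + 1)).flatMap (fun v =>
      (List.range (v + 1)).filterMap fun r =>
        Code.evaln v c (Nat.pair (Encodable.encode (pre X r)) n)) := by
    intro u _
    simp only [hits, pre_length]
    refine List.flatMap_congr fun v hv => List.filterMap_congr fun r hr => ?_
    simp only [List.mem_range] at hv hr
    rw [pre_take X (by omega)]
  rw [e s h, e t le_rfl]
  obtain ⟨d, rfl⟩ := Nat.exists_eq_add_of_le h
  have hd : List.range (s + d + 1) = List.range (s + 1) ++ (List.range d).map (s + 1 + ·) := by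
    rw [← List.range_add, show s + 1 + d = s + d + 1 by omega]
  rw [hd, List.flatMap_append]
  exact List.prefix_append _ _

lemma ev_mono {c : Code} {X : Seq} {n s t : ℕ} {v : Bool} (h : s ≤ t)
    (hv : ev c (pre X s) n = some v) : ev c (pre X t) n = some v := by
  obtain ⟨l, hl⟩ := hits_pre_prefix c X n h
  simp only [ev, ← hl] at hv ⊢
  cases hh : hits c (pre X s) n with
  | nil => simp [hh] at hv
  | cons a as => simp [hh] at hv ⊢; exact hv

lemma ev_unique {c : Code} {X : Seq} {n s t : ℕ} {v w : Bool}
    (hv : ev c (pre X s) n = some v) (hw : ev c (pre X t) n = some w) : v = w :=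
  Option.some.inj ((ev_mono (le_max_left s t) hv).symm.trans (ev_mono (le_max_right s t) hw))

/-- `c` computes `Y` from `X`. -/
def Comp (c : Code) (X Y : Seq) : Prop := ∀ n, ∃ s, ev c (pre X s) n = some (Y n)

lemma Comp.sound {c : Code} {X Y : Seq} (h : Comp c X Y) {n s : ℕ} {v : Bool}
    (hv : ev c (pre X s) n = some v) : v = Y n :=
  let ⟨_, ht⟩ := h n
  ev_unique hv ht

lemma Comp.unique {c : Code} {X Y Z : Seq} (h : Comp c X Y) (h' : Comp c X Z) : Y = Z :=
  funext fun n => let ⟨_, ht⟩ := h n; h'.sound ht

lemma Comp.eventually {c : Code} {X Y : Seq} (h : Comp c X Y) (n : ℕ) :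
    ∀ᶠ s in atTop, ev c (pre X s) n = some (Y n) :=
  let ⟨s, hs⟩ := h n
  eventually_atTop.2 ⟨s, fun _ ht => ev_mono ht hs⟩

/-- Turing reducibility between sequences. -/
def Rd (Y X : Seq) : Prop := ∃ c, Comp c X Y

/-- Every partial recursive search procedure is given by a code. -/
lemma exists_code_of_partrec {ψ : List Bool → ℕ →. ℕ} (hψ : Partrec₂ ψ) :
    ∃ c : Code, ∀ X Y : Seq, (∀ s n v, v ∈ ψ (pre X s) n → decide (v ≠ 0) = Y n) →
      (∀ n, ∃ s, (ψ (pre X s) n).Dom) → Comp c X Y := by
  let φ : ℕ →. ℕ := fun k =>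
    (Encodable.decode (α := List Bool) k.unpair.1 : Part (List Bool)).bind fun σ => ψ σ k.unpair.2
  have hφ : Partrec φ :=
    Partrec.bind (Computable.ofOption (Computable.decode.comp
      (Computable.fst.comp Primrec.unpair.to_comp)))
      (hψ.comp Computable.snd
        (Computable.snd.comp (Primrec.unpair.to_comp.comp Computable.fst))).to₂
  obtain ⟨c, hc⟩ := Code.exists_code.1 (Partrec.nat_iff.1 hφ)
  refine ⟨c, fun X Y hs hd n => ?_⟩
  have key : ∀ r v, v ∈ Code.eval c (Nat.pair (Encodable.encode (pre X r)) n) ↔
      v ∈ ψ (pre X r) n := by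
    intro r v; simp [hc, φ, Encodable.encodek]
  obtain ⟨r, hr⟩ := hd n
  obtain ⟨k, hk⟩ := Code.evaln_complete.1 ((key r _).2 (Part.get_mem hr))
  refine ⟨max r k, ?_⟩
  have hk' := Code.evaln_mono (le_max_right r k) hk
  have hmem : (ψ (pre X r) n).get hr ∈ hits c (pre X (max r k)) n := by
    simp only [hits, pre_length, List.mem_flatMap, List.mem_range, List.mem_filterMap]
    refine ⟨max r k, by omega, r, by omega, ?_⟩
    rw [pre_take X (le_max_left r k)]
    exact Option.mem_def.1 hk'
  unfold ev
  cases hh : hits c (pre X (max r k)) n with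
  | nil => simp [hh] at hmem
  | cons a as =>
    have ha : a ∈ hits c (pre X (max r k)) n := by simp [hh]
    simp only [hits, pre_length, List.mem_flatMap, List.mem_range, List.mem_filterMap] at ha
    obtain ⟨u, hu, r', hr', he⟩ := ha
    rw [pre_take X (by omega)] at he
    have := hs r' n a ((key r' a).1 (Code.evaln_sound (Option.mem_def.2 he)))
    simpa using this

/-- Every computable bounded search is given by a code. -/
lemma exists_code_of_search {g : List Bool → ℕ → Option Bool} (hg : Computable₂ g) :
    ∃ c : Code, ∀ X Y : Seq, (∀ s n v, g (pre X s) n = some v → v = Y n) →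
      (∀ n, ∃ s, g (pre X s) n ≠ none) → Comp c X Y := by
  let g' : List Bool → ℕ → Option ℕ := fun σ n => (g σ n).map fun b => if b = true then 1 else 0
  have hg' : Computable₂ g' :=
    (Computable.option_map hg
      ((Primrec.dom_bool fun b => if b = true then (1 : ℕ) else 0).to_comp.comp
        Computable.snd).to₂).to₂
  obtain ⟨c, hc⟩ := exists_code_of_partrec (ψ := fun σ n => (g' σ n : Part ℕ)) hg'.ofOption
  refine ⟨c, fun X Y hs hd => hc X Y ?_ ?_⟩
  · intro s n v hv
    cases hb : g (pre X s) n with
    | none => simp [g', hb] at hv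
    | some b =>
      simp [g', hb] at hv
      have := hs s n b hb
      subst hv
      cases b <;> simp [← this]
  · intro n
    obtain ⟨s, hs'⟩ := hd n
    refine ⟨s, ?_⟩
    cases hb : g (pre X s) n with
    | none => exact absurd hb hs'
    | some b => simp [g', hb]

/-- The longest determined output of `c` on the finite oracle `σ`. -/
def out (c : Code) (σ : List Bool) : List Bool :=
  let l := (List.range σ.length).map (ev c σ)
  (List.range (l.findIdx Option.isNone)).map fun i => (l.getI i).getD false

/-- Approximations of a sequence. -/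
def Ap (P : ℕ → List Bool) (Y : Seq) : Prop :=
  (∀ s, IsPre (P s) Y) ∧ ∀ L, ∀ᶠ s in atTop, L ≤ (P s).length

lemma ap_pre (X : Seq) : Ap (pre X) X :=
  ⟨isPre_pre X, fun L => eventually_atTop.2 ⟨L, fun s hs => by simp [hs]⟩⟩

lemma out_isPre {c : Code} {X Y : Seq} (h : Comp c X Y) (s : ℕ) :
    IsPre (out c (pre X s)) Y := by
  refine isPre_of_getElem? fun i hi => ?_
  simp only [out, List.length_map, List.length_range, pre_length] at hi
  have h1 := List.not_of_lt_findIdx hi
  have hi' : i < ((List.range s).map (ev c (pre X s))).length :=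
    lt_of_lt_of_le hi (List.findIdx_le_length ..)
  simp only [List.getElem_map, List.getElem_range] at h1
  obtain ⟨v, hv⟩ : ∃ v, ev c (pre X s) i = some v := by
    cases he : ev c (pre X s) i with
    | none => simp [he] at h1
    | some v => exact ⟨v, rfl⟩
  simp only [out, pre_length, List.getElem?_map, List.getElem?_range hi, Option.map_some,
    List.getI_eq_getElem _ hi', List.getElem_map, List.getElem_range, hv, Option.getD_some,
    h.sound hv]

lemma out_length {c : Code} {X Y : Seq} (h : Comp c X Y) (L : ℕ) :
    ∀ᶠ s in atTop, L ≤ (out c (pre X s)).length := by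
  filter_upwards [eventually_ge_atTop L,
    (Set.finite_Iio L).eventually_all.2 fun n _ => h.eventually n] with s hs hn
  simp only [out, List.length_map, List.length_range, pre_length]
  by_contra hlt
  rw [not_le] at hlt
  have hlen : ((List.range s).map (ev c (pre X s))).findIdx Option.isNone <
      ((List.range s).map (ev c (pre X s))).length := by
    rw [List.length_map, List.length_range]; exact lt_of_lt_of_le hlt hs
  have := List.findIdx_getElem (w := hlen)
  simp [hn _ (by simpa using hlt)] at this

lemma Ap.out {c : Code} {X Y : Seq} {P : ℕ → List Bool} (hP : Ap P X) (h : Comp c X Y) :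
    Ap (fun s => out c (P s)) Y := by
  refine ⟨fun s => ?_, fun L => ?_⟩
  · have := out_isPre h (P s).length
    rwa [← hP.1 s] at this
  · obtain ⟨T, hT⟩ := eventually_atTop.1 (out_length h L)
    filter_upwards [hP.2 T] with s hs
    have := hT _ hs
    rwa [← hP.1 s] at this

/-- The join of two sequences. -/
def join (X Y : Seq) : Seq := fun n => if n % 2 = 0 then X (n / 2) else Y (n / 2)

/-- The join of two finite oracles. -/
def joinL (a b : List Bool) : List Bool :=
  (List.range (2 * min a.length b.length)).map fun n =>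
    if n % 2 = 0 then a.getI (n / 2) else b.getI (n / 2)

lemma IsPre.join {a b : List Bool} {X Y : Seq} (ha : IsPre a X) (hb : IsPre b Y) :
    IsPre (joinL a b) (join X Y) := by
  refine isPre_of_getElem? fun i hi => ?_
  simp only [joinL, List.length_map, List.length_range] at hi
  simp only [joinL, List.getElem?_map, List.getElem?_range hi, Option.map_some, Vale.Agent.P327.join]
  rw [ha.getI (by omega), hb.getI (by omega)]

lemma Ap.join {P Q : ℕ → List Bool} {X Y : Seq} (hP : Ap P X) (hQ : Ap Q Y) :
    Ap (fun s => joinL (P s) (Q s)) (join X Y) := by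
  refine ⟨fun s => (hP.1 s).join (hQ.1 s), fun L => ?_⟩
  filter_upwards [hP.2 L, hQ.2 L] with s h1 h2
  simp [joinL]
  omega

/-- A computable transformation of approximations is given by a code. -/
lemma exists_code_of_ap {Φ : List Bool → List Bool} (hΦ : Computable Φ) :
    ∃ c : Code, ∀ X Y : Seq, Ap (fun s => Φ (pre X s)) Y → Comp c X Y := by
  obtain ⟨c, hc⟩ := exists_code_of_search (g := fun σ n => (Φ σ)[n]?)
    (Computable.list_getElem?.comp (hΦ.comp Computable.fst) Computable.snd).to₂
  refine ⟨c, fun X Y h => hc X Y ?_ ?_⟩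
  · intro s n v hv
    obtain ⟨hn, hv'⟩ := List.getElem?_eq_some_iff.1 hv
    have := (h.1 s).getElem? hn
    rw [hv] at this
    exact Option.some.inj this
  · intro n
    obtain ⟨s, hs⟩ := (h.2 (n + 1)).exists
    refine ⟨s, ?_⟩
    rw [ne_eq, List.getElem?_eq_none_iff]
    exact not_le.2 hs

lemma primrec_hits : Primrec fun p : (Code × List Bool) × ℕ => hits p.1.1 p.1.2 p.2 := by
  unfold hits
  refine Primrec.list_flatMap (Primrec.list_range.comp (Primrec.succ.comp
    (Primrec.list_length.comp (Primrec.snd.comp Primrec.fst)))) ?_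
  have h : Primrec fun q : ((Code × List Bool) × ℕ) × ℕ => List.range (q.2 + 1) :=
    Primrec.list_range.comp (Primrec.succ.comp Primrec.snd)
  unfold Primrec₂
  refine Primrec.listFilterMap h ?_
  exact (Code.primrec_evaln.comp (Primrec.pair
    (Primrec.pair (Primrec.snd.comp Primrec.fst)
      (Primrec.fst.comp (Primrec.fst.comp (Primrec.fst.comp Primrec.fst))))
    (Primrec₂.natPair.comp (Primrec.encode.comp (Primrec.list_take.comp Primrec.snd
      (Primrec.snd.comp (Primrec.fst.comp (Primrec.fst.comp Primrec.fst)))))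
      (Primrec.snd.comp (Primrec.fst.comp Primrec.fst))))).to₂

lemma primrec_ev : Primrec fun p : (Code × List Bool) × ℕ => ev p.1.1 p.1.2 p.2 := by
  unfold ev
  have h0 : Primrec fun v : ℕ => decide (v ≠ 0) :=
    (Primrec.nat_lt.decide.comp (Primrec.const 0) Primrec.id).of_eq fun v => by
      cases v <;> simp
  exact Primrec.option_map (Primrec.list_head?.comp primrec_hits) (h0.comp₂ Primrec₂.right)

lemma primrec_out (c : Code) : Primrec (out c) := by
  unfold out
  have hl : Primrec fun σ : List Bool => (List.range σ.length).map (ev c σ) :=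
    Primrec.list_map (Primrec.list_range.comp Primrec.list_length)
      (primrec_ev.comp (Primrec.pair (Primrec.pair (Primrec.const c) Primrec.fst) Primrec.snd)).to₂
  refine Primrec.list_map (Primrec.list_range.comp
    (Primrec.list_findIdx hl (p := fun _ o => Option.isNone o)
      ((Primrec.dom_finite Option.isNone).comp₂ Primrec₂.right))) ?_
  exact (Primrec.option_getD.comp (Primrec.list_getI.comp (hl.comp Primrec.fst) Primrec.snd)
    (Primrec.const false)).to₂

lemma primrec_joinL : Primrec₂ joinL := by
  unfold joinL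
  have h : Primrec fun p : List Bool × List Bool => 2 * min p.1.length p.2.length :=
    Primrec.nat_mul.comp (Primrec.const 2) (Primrec.nat_min.comp
      (Primrec.list_length.comp Primrec.fst) (Primrec.list_length.comp Primrec.snd))
  unfold Primrec₂
  refine Primrec.list_map (Primrec.list_range.comp h) ?_
  exact (Primrec.ite (Primrec.eq.comp (Primrec.nat_mod.comp Primrec.snd (Primrec.const 2))
      (Primrec.const 0))
    (Primrec.list_getI.comp (Primrec.fst.comp Primrec.fst)
      (Primrec.nat_div.comp Primrec.snd (Primrec.const 2)))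
    (Primrec.list_getI.comp (Primrec.snd.comp Primrec.fst)
      (Primrec.nat_div.comp Primrec.snd (Primrec.const 2)))).to₂

/-- Left half of a finite oracle. -/
def leftL (a : List Bool) : List Bool := (List.range (a.length / 2)).map fun i => a.getI (2 * i)

/-- Right half of a finite oracle. -/
def rightL (a : List Bool) : List Bool :=
  (List.range (a.length / 2)).map fun i => a.getI (2 * i + 1)

lemma Ap.left {P : ℕ → List Bool} {X Y : Seq} (hP : Ap P (Vale.Agent.P327.join X Y)) :
    Ap (fun s => leftL (P s)) X := by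
  refine ⟨fun s => isPre_of_getElem? fun i hi => ?_, fun L => ?_⟩
  · simp only [leftL, List.length_map, List.length_range] at hi
    simp only [leftL, List.getElem?_map, List.getElem?_range hi, Option.map_some]
    rw [(hP.1 s).getI (by omega), Vale.Agent.P327.join, if_pos (by omega)]
    congr 2; omega
  · filter_upwards [hP.2 (2 * L)] with s hs
    simp [leftL]; omega

lemma Ap.right {P : ℕ → List Bool} {X Y : Seq} (hP : Ap P (Vale.Agent.P327.join X Y)) :
    Ap (fun s => rightL (P s)) Y := by
  refine ⟨fun s => isPre_of_getElem? fun i hi => ?_, fun L => ?_⟩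
  · simp only [rightL, List.length_map, List.length_range] at hi
    simp only [rightL, List.getElem?_map, List.getElem?_range hi, Option.map_some]
    rw [(hP.1 s).getI (by omega), Vale.Agent.P327.join, if_neg (by omega)]
    congr 2; omega
  · filter_upwards [hP.2 (2 * L)] with s hs
    simp [rightL]; omega

lemma primrec_leftL : Primrec leftL := by
  unfold leftL
  exact Primrec.list_map (Primrec.list_range.comp (Primrec.nat_div.comp Primrec.list_length
    (Primrec.const 2))) (Primrec.list_getI.comp Primrec.fst
      (Primrec.nat_mul.comp (Primrec.const 2) Primrec.snd)).to₂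

lemma primrec_rightL : Primrec rightL := by
  unfold rightL
  exact Primrec.list_map (Primrec.list_range.comp (Primrec.nat_div.comp Primrec.list_length
    (Primrec.const 2))) (Primrec.list_getI.comp Primrec.fst
      (Primrec.succ.comp (Primrec.nat_mul.comp (Primrec.const 2) Primrec.snd))).to₂

lemma Rd.refl (X : Seq) : Rd X X := by
  obtain ⟨c, hc⟩ := exists_code_of_ap (Φ := id) Computable.id
  exact ⟨c, hc X X (ap_pre X)⟩

lemma Rd.trans {X Y Z : Seq} (h₁ : Rd X Y) (h₂ : Rd Y Z) : Rd X Z := by
  obtain ⟨a, ha⟩ := h₁
  obtain ⟨b, hb⟩ := h₂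
  obtain ⟨c, hc⟩ := exists_code_of_ap (Φ := fun σ => out a (out b σ))
    ((primrec_out a).comp (primrec_out b)).to_comp
  exact ⟨c, hc Z X (((ap_pre Z).out hb).out ha)⟩

lemma rd_join_left (X Y : Seq) : Rd X (join X Y) := by
  obtain ⟨c, hc⟩ := exists_code_of_ap primrec_leftL.to_comp
  exact ⟨c, hc _ _ (ap_pre _).left⟩

lemma rd_join_right (X Y : Seq) : Rd Y (join X Y) := by
  obtain ⟨c, hc⟩ := exists_code_of_ap primrec_rightL.to_comp
  exact ⟨c, hc _ _ (ap_pre _).right⟩

lemma Rd.join {X Y Z : Seq} (h₁ : Rd X Z) (h₂ : Rd Y Z) : Rd (join X Y) Z := by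
  obtain ⟨a, ha⟩ := h₁
  obtain ⟨b, hb⟩ := h₂
  obtain ⟨c, hc⟩ := exists_code_of_ap (Φ := fun σ => joinL (out a σ) (out b σ))
    (primrec_joinL.comp (primrec_out a) (primrec_out b)).to_comp
  exact ⟨c, hc _ _ (((ap_pre Z).out ha).join ((ap_pre Z).out hb))⟩

/-- Turing equivalence. -/
def Eqv (X Y : Seq) : Prop := Rd X Y ∧ Rd Y X

lemma Eqv.refl (X : Seq) : Eqv X X := ⟨.refl X, .refl X⟩

lemma Eqv.symm {X Y : Seq} (h : Eqv X Y) : Eqv Y X := ⟨h.2, h.1⟩

lemma Eqv.trans {X Y Z : Seq} (h : Eqv X Y) (h' : Eqv Y Z) : Eqv X Z :=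
  ⟨h.1.trans h'.1, h'.2.trans h.2⟩

lemma countable_rd (X : Seq) : {Y | Rd Y X}.Countable := by
  have : {Y | Rd Y X} = ⋃ c : Code, {Y | Comp c X Y} := by ext; simp [Rd]
  rw [this]
  exact Set.countable_iUnion fun c =>
    Set.Subsingleton.countable fun _ h _ h' => Comp.unique h h'

end Vale.Agent.P327
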