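import Mathlib
import Vale.Agent.P327.Red

/-!
Category lemmas for Cantor space.
-/

namespace Vale.Agent.P327

open Filter Set Topology
open Nat.Partrec (Code)

/-- `A` is non-meagre in every non-empty open subset of `U`. -/
def NE {X : Type*} [TopologicalSpace X] (A U : Set X) : Prop :=
  ∀ V, IsOpen V → V ⊆ U → V.Nonempty → ¬ IsMeagre (A ∩ V)

variable {X Y : Type*} [TopologicalSpace X] [TopologicalSpace Y]

lemma NE.mono {A B U : Set X} (h : NE A U) (hAB : A ∩ U ⊆ B) : NE B U :=
  fun V hV hVU hne hm => by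
    have hsub : A ∩ V ⊆ B ∩ V := fun _ hx => ⟨hAB ⟨hx.1, hVU hx.2⟩, hx.2⟩
    exact h V hV hVU hne (hm.mono hsub)

lemma NE.subset {A U V : Set X} (h : NE A U) (hVU : V ⊆ U) : NE A V :=
  fun W hW hWV hne => h W hW (hWV.trans hVU) hne

lemma NE.diff {A U M : Set X} (h : NE A U) (hM : IsMeagre M) : NE (A \ M) U := by
  intro V hV hVU hne hm
  refine h V hV hVU hne ((hm.union hM).mono fun x hx => ?_)
  by_cases hxM : x ∈ M
  · exact Or.inr hxM
  · exact Or.inl ⟨⟨hx.1, hxM⟩, hx.2⟩

lemma NE.nonempty {A U : Set X} (h : NE A U) (hU : IsOpen U) (hne : U.Nonempty) :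
    (A ∩ U).Nonempty :=
  nonempty_of_not_isMeagre (h U hU subset_rfl hne)

lemma exists_ne [SecondCountableTopology X] {A : Set X} (hA : ¬ IsMeagre A) :
    ∃ U, IsOpen U ∧ U.Nonempty ∧ NE A U := by
  by_contra hcon
  push Not at hcon
  obtain ⟨B, hBc, -, hB⟩ := TopologicalSpace.exists_countable_basis X
  set W := {b ∈ B | IsMeagre (A ∩ b)} with hW
  have hd : Dense (⋃₀ W) := by
    rw [dense_iff_inter_open]
    intro U hU hne
    have := hcon U hU hne
    simp only [NE, not_forall, not_not] at this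
    obtain ⟨V, hV, hVU, ⟨v, hv⟩, hm⟩ := this
    obtain ⟨b, hb, hvb, hbV⟩ := hB.exists_subset_of_mem_open hv hV
    exact ⟨v, hVU hv, b, ⟨hb, hm.mono (inter_subset_inter_right _ hbV)⟩, hvb⟩
  have ho : IsOpen (⋃₀ W) := isOpen_sUnion fun b hb => hB.isOpen hb.1
  have h1 : IsMeagre (⋃₀ W)ᶜ := by
    rw [IsMeagre, compl_compl]; exact residual_of_dense_open ho hd
  have h2 : IsMeagre (⋃ b ∈ W, A ∩ b) :=
    isMeagre_biUnion (hBc.mono fun _ h => h.1) fun b hb => hb.2
  refine hA ((h1.union h2).mono fun x hx => ?_)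
  by_cases hxW : x ∈ ⋃₀ W
  · obtain ⟨b, hb, hxb⟩ := hxW
    exact Or.inr (mem_iUnion₂.2 ⟨b, hb, hx, hxb⟩)
  · exact Or.inl hxW

lemma exists_not_isMeagre_of_cover {ι : Type*} [Countable ι] {A : Set X} {B : ι → Set X}
    (hA : ¬ IsMeagre A) (hcov : A ⊆ ⋃ i, B i) : ∃ i, ¬ IsMeagre (A ∩ B i) := by
  by_contra hcon
  push Not at hcon
  have hsub : A ⊆ ⋃ i, A ∩ B i := fun x hx =>
    let ⟨i, hi⟩ := mem_iUnion.1 (hcov hx); mem_iUnion.2 ⟨i, hx, hi⟩
  exact hA ((isMeagre_iUnion hcon).mono hsub)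

lemma NE.pigeon [SecondCountableTopology X] {ι : Type*} [Countable ι] {A U : Set X}
    {B : ι → Set X} (h : NE A U) (hU : IsOpen U) (hne : U.Nonempty)
    (hcov : A ∩ U ⊆ ⋃ i, B i) :
    ∃ i V, IsOpen V ∧ V ⊆ U ∧ V.Nonempty ∧ NE (A ∩ B i) V := by
  obtain ⟨i, hi⟩ := exists_not_isMeagre_of_cover (h U hU subset_rfl hne) hcov
  obtain ⟨V, hV, hVne, hNE⟩ := exists_ne hi
  refine ⟨i, V ∩ U, hV.inter hU, inter_subset_right, ?_, ?_⟩
  · obtain ⟨x, hx, hxV⟩ := hNE.nonempty hV hVne
    exact ⟨x, hxV, hx.1.2⟩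
  · exact (hNE.subset inter_subset_left).mono fun x hx => ⟨hx.1.1.1, hx.1.2⟩

lemma isMeagre_diff_of_gdelta {A U E : Set X} (hE : IsGδ E) (hU : IsOpen U) (h : NE A U)
    (hAE : A ∩ U ⊆ E) : IsMeagre (U \ E) := by
  obtain ⟨O, hO, rfl⟩ := isGδ_iff_eq_iInter_nat.1 hE
  rw [Set.sdiff_iInter]
  refine isMeagre_iUnion fun n => IsNowhereDense.isMeagre ?_
  rw [IsNowhereDense, eq_empty_iff_forall_notMem]
  intro x hx
  have hW : IsOpen (interior (closure (U \ O n))) := isOpen_interior
  obtain ⟨y, hyW, hyU⟩ := mem_closure_iff.1 (interior_subset hx) _ hW hx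
  obtain ⟨z, hzA, hz⟩ :=
    (h.subset inter_subset_right).nonempty (hW.inter hU) ⟨y, hyW, hyU.1⟩
  have hzO : z ∈ O n := mem_iInter.1 (hAE ⟨hzA, hz.2⟩) n
  obtain ⟨w, hwO, hw⟩ := mem_closure_iff.1 (interior_subset hz.1) _ (hO n) hzO
  exact hw.2 hwO

lemma isMeagre_sections [SecondCountableTopology Y] {M : Set (X × Y)} (hM : IsMeagre M) :
    IsMeagre {x | ¬ IsMeagre {y | (x, y) ∈ M}} := by
  obtain ⟨S, hS, hSc, hMS⟩ := isMeagre_iff_countable_union_isNowhereDense.1 hM
  obtain ⟨B, hBc, hB0, hB⟩ := TopologicalSpace.exists_countable_basis Y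
  have key : ∀ t ∈ S, IsMeagre (⋃ b ∈ B, {x | ∀ y ∈ b, (x, y) ∈ closure t}) := by
    intro t ht
    refine isMeagre_biUnion hBc fun b hb => IsNowhereDense.isMeagre ?_
    have hc : IsClosed {x | ∀ y ∈ b, (x, y) ∈ closure t} := by
      simp only [Set.ofPred_forall]
      exact isClosed_biInter fun y _ => isClosed_closure.preimage (Continuous.prodMk_left y)
    rw [hc.isNowhereDense_iff, eq_empty_iff_forall_notMem]
    intro x hx
    obtain ⟨y, hy⟩ : b.Nonempty := by
      rw [nonempty_iff_ne_empty]; rintro rfl; exact hB0 hb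
    have hsub : interior {x | ∀ y ∈ b, (x, y) ∈ closure t} ×ˢ b ⊆ interior (closure t) :=
      interior_maximal (fun p hp => interior_subset hp.1 p.2 hp.2)
        (isOpen_interior.prod (hB.isOpen hb))
    have := hsub (mk_mem_prod hx hy)
    rw [show interior (closure t) = ∅ from hS t ht] at this
    exact this
  refine (isMeagre_biUnion hSc key).mono fun x hx => ?_
  by_contra hcon
  simp only [mem_iUnion, Set.mem_ofPred_eq, not_exists] at hcon
  refine hx ((isMeagre_biUnion hSc fun t ht => IsNowhereDense.isMeagre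
    (?_ : IsNowhereDense {y | (x, y) ∈ closure t})).mono fun y hy => ?_)
  · have hcl : IsClosed {y | (x, y) ∈ closure t} :=
      isClosed_closure.preimage (Continuous.prodMk_right x)
    rw [hcl.isNowhereDense_iff, eq_empty_iff_forall_notMem]
    intro y hy
    obtain ⟨b, hb, _, hsub⟩ := hB.exists_subset_of_mem_open hy isOpen_interior
    exact hcon t ht b hb fun z hz => interior_subset (s := {y | (x, y) ∈ closure t}) (hsub hz)
  · obtain ⟨t, ht, hyt⟩ := mem_sUnion.1 (hMS hy)
    exact mem_iUnion₂.2 ⟨t, ht, subset_closure hyt⟩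

lemma NE.prod [SecondCountableTopology Y] {A U : Set X} {S : X → Set Y} {V : Set Y}
    (hA : NE A U) (hS : ∀ x ∈ A, NE (S x) V) :
    NE {p : X × Y | p.1 ∈ A ∧ p.2 ∈ S p.1} (U ×ˢ V) := by
  rintro W hW hWUV ⟨⟨x0, y0⟩, hp⟩ hm
  obtain ⟨U', V', hU', hV', hxU', hyV', hsub⟩ := isOpen_prod_iff.1 hW x0 y0 hp
  have hU'U : U' ⊆ U := fun x hx => (hWUV (hsub (mk_mem_prod hx hyV'))).1
  have hV'V : V' ⊆ V := fun y hy => (hWUV (hsub (mk_mem_prod hxU' hy))).2
  obtain ⟨x, ⟨hxA, hxs⟩, hxU⟩ :=
    ((hA.subset hU'U).diff (isMeagre_sections hm)).nonempty hU' ⟨x0, hxU'⟩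
  simp only [Set.mem_ofPred_eq, not_not] at hxs
  have hsub' : S x ∩ V' ⊆ {y | (x, y) ∈ {p : X × Y | p.1 ∈ A ∧ p.2 ∈ S p.1} ∩ W} :=
    fun y hy => ⟨⟨hxA, hy.1⟩, hsub (mk_mem_prod hxU hy.2)⟩
  exact hS x hxA V' hV' hV'V ⟨y0, hyV'⟩ (hxs.mono hsub')

lemma NE.snd {R : Set (X × Y)} {B : Set Y} {U : Set X} {V : Set Y} (hU : IsOpen U)
    (hne : U.Nonempty) (h : NE R (U ×ˢ V)) (hRB : ∀ p ∈ R, p.2 ∈ B) : NE B V := by
  intro V' hV' hV'V hne' hm
  refine h (U ×ˢ V') (hU.prod hV') (prod_mono subset_rfl hV'V) (hne.prod hne') ?_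
  have hsub : R ∩ U ×ˢ V' ⊆ Prod.snd ⁻¹' (B ∩ V') := fun p hp => ⟨hRB p hp.1, hp.2.2⟩
  exact (hm.preimage_of_isOpenMap continuous_snd isOpenMap_snd).mono hsub

/-! ### Cantor space -/

lemma isOpen_pre (s : ℕ) (P : List Bool → Prop) : IsOpen {x : Seq | P (pre x s)} := by
  refine isOpen_iff_mem_nhds.2 fun x hx => mem_of_superset
    ((PiNat.isOpen_cylinder _ x s).mem_nhds (PiNat.self_mem_cylinder x s)) fun y hy => ?_
  simp only [Set.mem_ofPred_eq, (pre_eq_iff.2 hy : pre y s = pre x s)]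
  exact hx

lemma exists_cyl_subset {U : Set Seq} (hU : IsOpen U) {x : Seq} (hx : x ∈ U) :
    ∃ M, PiNat.cylinder x M ⊆ U := by
  obtain ⟨v, ⟨y, n, rfl⟩, hxv, hvU⟩ :=
    (PiNat.isTopologicalBasis_cylinders fun _ : ℕ => Bool).exists_subset_of_mem_open hx hU
  exact ⟨n, by rwa [PiNat.mem_cylinder_iff_eq.1 hxv]⟩

lemma exists_cyl_subset₂ {W : Set (Seq × Seq)} (hW : IsOpen W) {x y : Seq} (hx : (x, y) ∈ W) :
    ∃ M, PiNat.cylinder x M ×ˢ PiNat.cylinder y M ⊆ W := by
  obtain ⟨U, V, hU, hV, hxU, hyV, hsub⟩ := isOpen_prod_iff.1 hW x y hx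
  obtain ⟨a, ha⟩ := exists_cyl_subset hU hxU
  obtain ⟨b, hb⟩ := exists_cyl_subset hV hyV
  exact ⟨max a b, (prod_mono ((PiNat.cylinder_anti x (le_max_left a b)).trans ha)
    ((PiNat.cylinder_anti y (le_max_right a b)).trans hb)).trans hsub⟩

lemma ev_isPre {c : Code} {X Y : Seq} (h : Comp c X Y) {l : List Bool} (hl : IsPre l X)
    {n : ℕ} {v : Bool} (hv : ev c l n = some v) : v = Y n := by
  rw [hl] at hv
  exact h.sound hv

/-- A set computable from `a` together with a non-meagre set of partners is computable from `a`. -/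
lemma rd_of_not_isMeagre {R a : Seq} (h : ¬ IsMeagre {g : Seq | Rd R (join a g)}) : Rd R a := by
  obtain ⟨c, hc⟩ := exists_not_isMeagre_of_cover (B := fun c => {g | Comp c (join a g) R}) h
    (fun g hg => mem_iUnion.2 hg)
  obtain ⟨U, hU, ⟨g0, hg0⟩, hNE⟩ := exists_ne hc
  obtain ⟨M, hM⟩ := exists_cyl_subset hU hg0
  let ok : List Bool → Bool := fun τ => decide (M ≤ τ.length ∧ τ.take M = pre g0 M)
  let G : List Bool → ℕ → Option Bool := fun σ n =>
    ((List.range σ.length).filterMap fun j =>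
      (Encodable.decode (α := List Bool) j).bind fun τ =>
        if ok τ = true then ev c (joinL σ τ) n else none).head?
  have hok : Primrec ok :=
    PrimrecPred.decide ((Primrec.nat_le.comp (Primrec.const M) Primrec.list_length).and
      (Primrec.eq.comp (Primrec.list_take.comp (Primrec.const M) Primrec.id)
        (Primrec.const (pre g0 M))))
  have hG : Computable₂ G := by
    refine (Primrec.list_head?.comp (Primrec.listFilterMap (Primrec.list_range.comp
      (Primrec.list_length.comp Primrec.fst)) ?_)).to_comp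
    unfold Primrec₂
    refine Primrec.option_bind (Primrec.decode.comp Primrec.snd) ?_
    refine (Primrec.ite (Primrec.eq.comp (hok.comp Primrec.snd) (Primrec.const true))
      (primrec_ev.comp (Primrec.pair (Primrec.pair (Primrec.const c) (primrec_joinL.comp
        (Primrec.fst.comp (Primrec.fst.comp Primrec.fst)) Primrec.snd))
        (Primrec.snd.comp (Primrec.fst.comp Primrec.fst)))) (Primrec.const none)).to₂
  obtain ⟨d, hd⟩ := exists_code_of_search hG
  refine ⟨d, hd a R ?_ ?_⟩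
  · intro s n v hv
    have hv' := List.mem_of_mem_head? (Option.mem_def.2 hv)
    simp only [List.mem_filterMap, List.mem_range, Option.bind_eq_some_iff] at hv'
    obtain ⟨j, -, τ, -, hτ⟩ := hv'
    by_cases hokτ : ok τ = true
    · rw [if_pos hokτ] at hτ
      simp only [ok, decide_eq_true_eq] at hokτ
      have hV : IsOpen {g : Seq | pre g τ.length = τ} := isOpen_pre _ (fun l => l = τ)
      have hsub : {g : Seq | pre g τ.length = τ} ⊆ U := fun g hg => hM fun i hi => by
        have h1 : pre g M = pre g0 M := by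
          rw [← hokτ.2, ← pre_take g hokτ.1]; exact congrArg (List.take M) hg
        exact pre_eq_iff.1 h1 i hi
      obtain ⟨g, ⟨-, hg⟩, hgτ⟩ := (hNE.subset hsub).nonempty hV
        ⟨fun i => τ.getI i, List.ext_getElem (by simp) fun i h1 h2 => by
          simp [pre, List.getI_eq_getElem _ h2]⟩
      exact ev_isPre hg ((isPre_pre a s).join (hgτ ▸ isPre_pre g τ.length)) hτ
    · rw [if_neg hokτ] at hτ; simp at hτ
  · intro n
    obtain ⟨g, ⟨-, hg⟩, hgc⟩ := (hNE.subset hM).nonempty (PiNat.isOpen_cylinder _ g0 M)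
      ⟨g0, PiNat.self_mem_cylinder g0 M⟩
    obtain ⟨L, hL⟩ := hg n
    set L' := max L M
    refine ⟨max L' (Encodable.encode (pre g L') + 1), fun hnone => ?_⟩
    have hmem : Encodable.encode (pre g L') ∈
        List.range (pre a (max L' (Encodable.encode (pre g L') + 1))).length := by
      simp
    have hokg : ok (pre g L') = true := by
      simp only [ok, decide_eq_true_eq, pre_length]
      exact ⟨le_max_right _ _, by rw [pre_take g (le_max_right _ _)]; exact pre_eq_iff.2 hgc⟩
    rw [List.head?_eq_none_iff, List.filterMap_eq_nil_iff] at hnone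
    have := hnone _ hmem
    rw [Encodable.encodek, Option.bind_some, if_pos hokg] at this
    have hp := ((isPre_pre a (max L' (Encodable.encode (pre g L') + 1))).join (isPre_pre g L'))
    rw [hp] at this
    have hle : L ≤ (joinL (pre a (max L' (Encodable.encode (pre g L') + 1))) (pre g L')).length := by
      simp [joinL, L']
      omega
    rw [ev_mono hle hL] at this
    simp at this

/-- The iterated join of finitely many sequences. -/
def jfin : {k : ℕ} → (Fin k → Seq) → Seq
  | 0, _ => fun _ => false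
  | _ + 1, H => join (H 0) (jfin fun i => H i.succ)

lemma rd_jfin : ∀ {k : ℕ} (H : Fin k → Seq) (i : Fin k), Rd (H i) (jfin H)
  | 0, _, i => i.elim0
  | k + 1, H, i => by
    induction i using Fin.cases with
    | zero => exact rd_join_left _ _
    | succ j => exact (rd_jfin (fun i => H i.succ) j).trans (rd_join_right _ _)

lemma rd_false (X : Seq) : Rd (fun _ => false) X := by
  obtain ⟨c, hc⟩ := exists_code_of_search (g := fun _ _ => some false) (Computable.const _).to₂
  exact ⟨c, hc _ _ (fun s n v h => by simp at h; exact h) fun n => ⟨0, by simp⟩⟩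

/-- Helpers ranging over non-meagre sets can be removed from a reduction. -/
lemma rd_of_jfin : ∀ {k : ℕ} {R a : Seq} {S V : Fin k → Set Seq} {M : Set (Fin k → Seq)},
    (∀ i, IsOpen (V i) ∧ (V i).Nonempty ∧ NE (S i) (V i)) → IsMeagre M →
    (∀ H : Fin k → Seq, (∀ i, H i ∈ S i ∧ H i ∈ V i) → H ∉ M → Rd R (join a (jfin H))) → Rd R a
  | 0, R, a, S, V, M, _, hM, h => by
    obtain ⟨H, hH⟩ : ∃ H, H ∉ M := (dense_of_mem_residual hM).nonempty
    exact (h H (fun i => i.elim0) hH).trans ((Rd.refl a).join (rd_false a))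
  | k + 1, R, a, S, V, M, hS, hM, h => by
    let e : Seq × (Fin k → Seq) ≃ₜ (Fin (k + 1) → Seq) :=
      { toFun := fun p => Fin.cons p.1 p.2
        invFun := fun H => (H 0, fun i => H i.succ)
        left_inv := fun p => by simp
        right_inv := fun H => Fin.cons_self_tail H
        continuous_toFun := continuous_pi fun i => by
          induction i using Fin.cases with
          | zero => simpa using continuous_fst
          | succ j => simp only [Fin.cons_succ]; exact (continuous_apply j).comp continuous_snd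
        continuous_invFun := (continuous_apply 0).prodMk
          (continuous_pi fun i => continuous_apply i.succ) }
    have hM' : IsMeagre (e ⁻¹' M) := hM.preimage_of_isOpenMap e.continuous e.isOpenMap
    refine rd_of_not_isMeagre fun hcon => ?_
    refine ((hS 0).2.2.diff (isMeagre_sections hM')) (V 0) (hS 0).1 subset_rfl (hS 0).2.1
      (hcon.mono ?_)
    rintro g ⟨⟨hgS, hgM⟩, hgV⟩
    simp only [Set.mem_ofPred_eq, not_not] at hgM
    refine rd_of_jfin (S := fun i => S i.succ) (V := fun i => V i.succ) (fun i => hS i.succ) hgM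
      fun H hH hHM => ?_
    refine (h (Fin.cons g H) (fun i => ?_) hHM).trans ?_
    · induction i using Fin.cases with
      | zero => simpa using ⟨hgS, hgV⟩
      | succ j => simpa using hH j
    · have ha : Rd a (join (join a g) (jfin H)) := (rd_join_left a g).trans (rd_join_left _ _)
      have hg : Rd g (join (join a g) (jfin H)) := (rd_join_right a g).trans (rd_join_left _ _)
      refine ha.join ?_
      simp only [jfin, Fin.cons_zero, Fin.cons_succ]
      exact hg.join (rd_join_right _ _)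

end Vale.Agent.P327
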