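import Mathlib
import Vale.Agent.P327.Cat

/-!
Every automorphism of the Turing degrees is, modulo joining with some fixed set, the identity.
-/

namespace Vale.Agent.P327

open Filter Set Topology
open Nat.Partrec (Code)

/-- A representation of an automorphism of the Turing degrees. -/
structure Auto where
  F : Seq → Seq
  mono_iff : ∀ X Y, Rd (F X) (F Y) ↔ Rd X Y
  surj : ∀ Y, ∃ X, Eqv (F X) Y

/-- The representation of the inverse automorphism. -/
noncomputable def Auto.inv (π : Auto) (Y : Seq) : Seq := (π.surj Y).choose

lemma Auto.F_inv (π : Auto) (Y : Seq) : Eqv (π.F (π.inv Y)) Y := (π.surj Y).choose_spec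

lemma Auto.congr (π : Auto) {X Y : Seq} (h : Eqv X Y) : Eqv (π.F X) (π.F Y) :=
  ⟨(π.mono_iff X Y).2 h.1, (π.mono_iff Y X).2 h.2⟩

lemma Auto.inv_F (π : Auto) (X : Seq) : Eqv (π.inv (π.F X)) X :=
  ⟨(π.mono_iff _ _).1 (π.F_inv _).1, (π.mono_iff _ _).1 (π.F_inv _).2⟩

/-- The inverse automorphism. -/
noncomputable def Auto.symm (π : Auto) : Auto where
  F := π.inv
  mono_iff X Y := by
    rw [← π.mono_iff]
    exact ⟨fun h => ((π.F_inv X).2.trans h).trans (π.F_inv Y).1,
      fun h => ((π.F_inv X).1.trans h).trans (π.F_inv Y).2⟩
  surj Y := ⟨π.F Y, π.inv_F Y⟩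

lemma Auto.map_join (π : Auto) (X Y : Seq) :
    Eqv (π.F (join X Y)) (join (π.F X) (π.F Y)) := by
  refine ⟨?_, ((π.mono_iff _ _).2 (rd_join_left X Y)).join
    ((π.mono_iff _ _).2 (rd_join_right X Y))⟩
  have hZ := π.F_inv (join (π.F X) (π.F Y))
  have hX : Rd X (π.inv (join (π.F X) (π.F Y))) :=
    (π.mono_iff _ _).1 ((rd_join_left _ _).trans hZ.2)
  have hY : Rd Y (π.inv (join (π.F X) (π.F Y))) :=
    (π.mono_iff _ _).1 ((rd_join_right _ _).trans hZ.2)
  exact ((π.mono_iff _ _).2 (hX.join hY)).trans hZ.1

/-! ### Mutually independent sets -/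

/-- The join of the columns selected by the finite list `l`. -/
def cols (g : ℕ → Seq) (l : List Bool) : Seq :=
  fun p => l.getI p.unpair.1 && g p.unpair.1 p.unpair.2

/-- Independence below `n`. -/
def Indep (g : ℕ → Seq) (n : ℕ) : Prop :=
  ∀ l : List Bool, (∀ j, l.getI j = true → j < n) → ∀ m < n, l.getI m = false →
    ¬ Rd (g m) (cols g l)

lemma cols_congr {g g' : ℕ → Seq} {n : ℕ} {l : List Bool} (hl : ∀ j, l.getI j = true → j < n)
    (h : ∀ j < n, g j = g' j) : cols g l = cols g' l := by
  funext p
  by_cases hp : l.getI p.unpair.1 = true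
  · simp [cols, h _ (hl _ hp)]
  · simp [cols, hp]

lemma isMeagre_singleton_seq (x : Seq) : IsMeagre ({x} : Set Seq) := by
  refine IsNowhereDense.isMeagre ?_
  rw [isClosed_singleton.isNowhereDense_iff, eq_empty_iff_forall_notMem]
  intro y hy
  obtain ⟨M, hM⟩ := exists_cyl_subset isOpen_interior hy
  have h1 := interior_subset (hM (PiNat.self_mem_cylinder y M))
  have h2 := interior_subset (hM (show Function.update y M (!y M) ∈ PiNat.cylinder y M from
    fun i hi => Function.update_of_ne (by omega) _ _))
  rw [mem_singleton_iff] at h1 h2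
  have := congrFun (h2.trans h1.symm) M
  simp at this

lemma exists_indep_step (g : ℕ → Seq) (n : ℕ) (hg : Indep g n) :
    ∃ y, Indep (Function.update g n y) (n + 1) := by
  classical
  let Bad₁ : List Bool → Set Seq := fun l =>
    if ∀ j, l.getI j = true → j < n then {y | Rd y (cols g l)} else ∅
  let Bad₂ : List Bool × ℕ → Set Seq := fun q =>
    if (∀ j, q.1.getI j = true → j < n) ∧ q.2 < n ∧ q.1.getI q.2 = false then
      {y | Rd (g q.2) (join (cols g q.1) y)} else ∅
  have h1 : ∀ l, IsMeagre (Bad₁ l) := fun l => by
    simp only [Bad₁]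
    split_ifs
    · rw [← biUnion_of_singleton {y | Rd y (cols g l)}]
      exact isMeagre_biUnion (countable_rd _) fun y _ => isMeagre_singleton_seq y
    · exact IsMeagre.empty
  have h2 : ∀ q, IsMeagre (Bad₂ q) := fun q => by
    simp only [Bad₂]
    split_ifs with hq
    · by_contra hcon
      exact hg q.1 hq.1 q.2 hq.2.1 hq.2.2 (rd_of_not_isMeagre hcon)
    · exact IsMeagre.empty
  obtain ⟨y, hy⟩ : ∃ y, y ∉ (⋃ l, Bad₁ l) ∪ ⋃ q, Bad₂ q :=
    (dense_of_mem_residual ((isMeagre_iUnion h1).union (isMeagre_iUnion h2))).nonempty
  simp only [mem_union, mem_iUnion, not_or, not_exists] at hy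
  refine ⟨y, fun l hl m hm hlm hrd => ?_⟩
  have hag : ∀ j < n, Function.update g n y j = g j := fun j hj =>
    Function.update_of_ne (by omega) _ _
  let l' : List Bool := (List.range n).map l.getI
  have hl'get : ∀ j, l'.getI j = (decide (j < n) && l.getI j) := fun j => by
    by_cases hj : j < n
    · simp [l', List.getI_eq_getElem, hj]
    · rw [List.getI_eq_default _ (by simp [l']; omega)]; simp [hj]
  have hl' : ∀ j, l'.getI j = true → j < n := fun j hj => by
    rw [hl'get] at hj; simp at hj; exact hj.1
  by_cases hln : l.getI n = true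
  · have hmn : m < n := lt_of_le_of_ne (by omega) fun h => by subst h; simp [hln] at hlm
    rw [hag m hmn] at hrd
    refine hy.2 (l', m) ?_
    simp only [Bad₂]
    rw [if_pos ⟨hl', hmn, by rw [hl'get]; simp [hlm]⟩]
    refine hrd.trans ?_
    obtain ⟨c, hc⟩ := exists_code_of_search (g := fun σ p =>
      if l.getI p.unpair.1 = true then
        if p.unpair.1 = n then σ[2 * p.unpair.2 + 1]? else σ[2 * p]?
      else some false)
      (Primrec.ite (Primrec.eq.comp (Primrec.list_getI.comp (Primrec.const l)
          (Primrec.fst.comp (Primrec.unpair.comp Primrec.snd))) (Primrec.const true))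
        (Primrec.ite (Primrec.eq.comp (Primrec.fst.comp (Primrec.unpair.comp Primrec.snd))
            (Primrec.const n))
          (Primrec.list_getElem?.comp Primrec.fst (Primrec.succ.comp (Primrec.nat_mul.comp
            (Primrec.const 2) (Primrec.snd.comp (Primrec.unpair.comp Primrec.snd)))))
          (Primrec.list_getElem?.comp Primrec.fst
            (Primrec.nat_mul.comp (Primrec.const 2) Primrec.snd)))
        (Primrec.const (some false))).to_comp.to₂
    refine ⟨c, hc _ _ (fun s p v hv => ?_) (fun p => ⟨2 * p + 2 * p.unpair.2 + 2, ?_⟩)⟩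
    · by_cases hlp : l.getI p.unpair.1 = true
      · rw [if_pos hlp] at hv
        split_ifs at hv with hpn
        · rw [pre_getElem?] at hv
          split_ifs at hv
          cases hv
          simp [cols, join, hpn, hln, Nat.add_mod, Nat.mul_div_right _ two_pos,
            Nat.add_div]
        · rw [pre_getElem?] at hv
          split_ifs at hv
          cases hv
          have hlt : p.unpair.1 < n := lt_of_le_of_ne (by have := hl _ hlp; omega) hpn
          simp [cols, join, hlp, hag _ hlt, hl'get, hlt]
      · rw [if_neg hlp] at hv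
        cases hv
        simp [cols, hlp]
    · split_ifs <;> simp
      all_goals omega
  · have hl2 : ∀ j, l.getI j = true → j < n := fun j hj =>
      lt_of_le_of_ne (by have := hl j hj; omega) fun h => hln (h ▸ hj)
    rw [cols_congr hl2 hag] at hrd
    rcases eq_or_lt_of_le (Nat.lt_succ_iff.1 hm) with rfl | hmn
    · rw [Function.update_self] at hrd
      refine hy.1 l ?_
      simp only [Bad₁]; rw [if_pos hl2]; exact hrd
    · rw [hag m hmn] at hrd
      exact hg l hl2 m hmn hlm hrd

/-- Stages of the construction of the independent family. -/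
noncomputable def indepStage : (n : ℕ) → {g : ℕ → Seq // Indep g n}
  | 0 => ⟨fun _ _ => false, fun _ _ m hm => absurd hm (Nat.not_lt_zero m)⟩
  | n + 1 => ⟨_, (exists_indep_step (indepStage n).1 n (indepStage n).2).choose_spec⟩

lemma indepStage_agree {m n : ℕ} (h : m ≤ n) :
    ∀ j < m, (indepStage n).1 j = (indepStage m).1 j := by
  induction n, h using Nat.le_induction with
  | base => simp
  | succ n hmn ih =>
    intro j hj
    rw [← ih j hj]
    exact Function.update_of_ne (by omega) _ _

/-- The independent family. -/
noncomputable def indepFam (n : ℕ) : Seq := (indepStage (n + 1)).1 n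

lemma indepFam_spec {l : List Bool} {m : ℕ} (h : l.getI m = false) :
    ¬ Rd (indepFam m) (cols indepFam l) := by
  have hl : ∀ j, l.getI j = true → j < max (m + 1) l.length := fun j hj => by
    by_contra hcon
    rw [List.getI_eq_default _ (by omega)] at hj
    exact Bool.false_ne_true hj
  have hag : ∀ j < max (m + 1) l.length,
      indepFam j = (indepStage (max (m + 1) l.length)).1 j := fun j hj =>
    (indepStage_agree (Nat.succ_le_of_lt hj) j (Nat.lt_succ_self j)).symm
  rw [cols_congr hl hag, hag m (by omega)]
  exact (indepStage _).2 l hl m (by omega) h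

/-! ### Constructions by a table of finite extensions -/

/-- The stages of the construction driven by `T`. -/
def chainSt (T : ℕ → List Bool → List Bool → List Bool) (x : Seq) : ℕ → List Bool
  | 0 => []
  | k + 1 => T k (chainSt T x k) (pre x (chainSt T x k).length)

lemma exists_chain (T : ℕ → List Bool → List Bool → List Bool) :
    ∃ h : Seq, ∀ dec : ℕ × List Bool × List Bool → Bool, Primrec dec →
      ∃ c : Code, ∀ x Y : Seq,
        (∀ n, dec (n, chainSt T x (n + 1), pre x (chainSt T x (n + 1)).length) = Y n) →
        Comp c (join x h) Y := by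
  classical
  refine ⟨fun q => match Encodable.decode (α := (ℕ × List Bool × List Bool) × List Bool) q with
    | some ((k, st, xp), τ) => decide (τ = T k st xp)
    | none => false, fun dec hdec => ?_⟩
  let look : List Bool → ℕ × List Bool × List Bool → Option (List Bool) := fun hs key =>
    ((List.range hs.length).filterMap fun j =>
      (Encodable.decode (α := (ℕ × List Bool × List Bool) × List Bool) j).bind fun q =>
        if q.1 = key ∧ hs.getI j = true then some q.2 else none).head?
  let step : List Bool × List Bool → ℕ → List Bool → Option (List Bool) := fun σ k st =>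
    if st.length ≤ σ.1.length then look σ.2 (k, st, σ.1.take st.length) else none
  let R : List Bool × List Bool → ℕ → Option (List Bool) := fun σ k =>
    Nat.rec (some []) (fun i r => r.bind (step σ i)) k
  let G : List Bool → ℕ → Option Bool := fun σ n =>
    (R (leftL σ, rightL σ) (n + 1)).bind fun st =>
      if st.length ≤ (leftL σ).length then some (dec (n, st, (leftL σ).take st.length)) else none
  have hlook : Primrec₂ look := by
    unfold Primrec₂
    refine Primrec.list_head?.comp (Primrec.listFilterMap
      (Primrec.list_range.comp (Primrec.list_length.comp Primrec.fst)) ?_)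
    unfold Primrec₂
    refine Primrec.option_bind (Primrec.decode.comp Primrec.snd) ?_
    exact (Primrec.ite ((Primrec.eq.comp (Primrec.fst.comp Primrec.snd)
        (Primrec.snd.comp (Primrec.fst.comp Primrec.fst))).and
        (Primrec.eq.comp (Primrec.list_getI.comp (Primrec.fst.comp (Primrec.fst.comp Primrec.fst))
          (Primrec.snd.comp Primrec.fst)) (Primrec.const true)))
      (Primrec.option_some.comp (Primrec.snd.comp Primrec.snd)) (Primrec.const none)).to₂
  have hstep : Primrec fun p : ((List Bool × List Bool) × ℕ) × List Bool =>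
      step p.1.1 p.1.2 p.2 :=
    Primrec.ite (Primrec.nat_le.comp (Primrec.list_length.comp Primrec.snd)
        (Primrec.list_length.comp (Primrec.fst.comp (Primrec.fst.comp Primrec.fst))))
      (hlook.comp (Primrec.snd.comp (Primrec.fst.comp Primrec.fst))
        (Primrec.pair (Primrec.snd.comp Primrec.fst) (Primrec.pair Primrec.snd
          (Primrec.list_take.comp (Primrec.list_length.comp Primrec.snd)
            (Primrec.fst.comp (Primrec.fst.comp Primrec.fst))))))
      (Primrec.const none)
  have hR : Primrec₂ R := by
    refine Primrec.nat_rec (f := fun _ : List Bool × List Bool => some ([] : List Bool))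
      (g := fun a q => q.2.bind (step a q.1)) (Primrec.const _) ?_
    unfold Primrec₂
    refine Primrec.option_bind (Primrec.snd.comp Primrec.snd) ?_
    exact (hstep.comp (Primrec.pair (Primrec.pair (Primrec.fst.comp Primrec.fst)
      (Primrec.fst.comp (Primrec.snd.comp Primrec.fst))) Primrec.snd)).to₂
  have hG : Computable₂ G := by
    refine (Primrec.option_bind (hR.comp (Primrec.pair (primrec_leftL.comp Primrec.fst)
      (primrec_rightL.comp Primrec.fst)) (Primrec.succ.comp Primrec.snd)) ?_).to_comp
    exact (Primrec.ite (Primrec.nat_le.comp (Primrec.list_length.comp Primrec.snd)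
        (Primrec.list_length.comp (primrec_leftL.comp (Primrec.fst.comp Primrec.fst))))
      (Primrec.option_some.comp (hdec.comp (Primrec.pair (Primrec.snd.comp Primrec.fst)
        (Primrec.pair Primrec.snd (Primrec.list_take.comp (Primrec.list_length.comp Primrec.snd)
          (primrec_leftL.comp (Primrec.fst.comp Primrec.fst)))))))
      (Primrec.const none)).to₂
  obtain ⟨c, hc⟩ := exists_code_of_search hG
  refine ⟨c, fun x Y hY => ?_⟩
  set h : Seq := fun q =>
    match Encodable.decode (α := (ℕ × List Bool × List Bool) × List Bool) q with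
    | some ((k, st, xp), τ) => decide (τ = T k st xp)
    | none => false with hh
  have hlk : ∀ (l : List Bool) k st xp τ, IsPre l h → look l (k, st, xp) = some τ →
      τ = T k st xp := by
    intro l k st xp τ hl hτ
    have := List.mem_of_mem_head? (Option.mem_def.2 hτ)
    simp only [List.mem_filterMap, List.mem_range, Option.bind_eq_some_iff] at this
    obtain ⟨j, hj, ⟨q1, q2⟩, hq, hif⟩ := this
    split_ifs at hif with hcond
    obtain rfl : q2 = τ := Option.some.inj hif
    obtain ⟨rfl, hbit⟩ := hcond
    rw [hl.getI hj] at hbit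
    simp only [hh, hq, decide_eq_true_eq] at hbit
    exact hbit
  have hsound : ∀ s k st, R (leftL (pre (join x h) s), rightL (pre (join x h) s)) k = some st →
      st = chainSt T x k := by
    intro s k
    induction k with
    | zero => intro st hst; exact (Option.some.inj hst).symm
    | succ k ih =>
      intro st hst
      obtain ⟨st', h1, h2⟩ := Option.bind_eq_some_iff.1 hst
      have h1' := ih st' h1
      subst h1'
      simp only [step] at h2
      split_ifs at h2 with hlen
      have hl : IsPre (leftL (pre (join x h) s)) x := (ap_pre (join x h)).left.1 s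
      rw [hl, pre_take x hlen] at h2
      exact hlk _ _ _ _ _ ((ap_pre (join x h)).right.1 s) h2
  have hcomplete : ∀ k, ∀ᶠ s in atTop,
      R (leftL (pre (join x h) s), rightL (pre (join x h) s)) k = some (chainSt T x k) := by
    intro k
    induction k with
    | zero => exact Eventually.of_forall fun _ => rfl
    | succ k ih =>
      filter_upwards [ih, (ap_pre (join x h)).left.2 (chainSt T x k).length,
        (ap_pre (join x h)).right.2 (Encodable.encode ((k, chainSt T x k,
          pre x (chainSt T x k).length), chainSt T x (k + 1)) + 1)] with s h1 h2 h3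
      show (R _ k).bind (step _ k) = _
      rw [h1, Option.bind_some]
      simp only [step]
      have hl : IsPre (leftL (pre (join x h) s)) x := (ap_pre (join x h)).left.1 s
      rw [if_pos h2, hl, pre_take x h2]
      cases hlo : look (rightL (pre (join x h) s))
          (k, chainSt T x k, pre x (chainSt T x k).length) with
      | some τ => rw [hlk _ _ _ _ _ ((ap_pre (join x h)).right.1 s) hlo]; rfl
      | none =>
        exfalso
        simp only [look, List.head?_eq_none_iff, List.filterMap_eq_nil_iff] at hlo
        have := hlo _ (List.mem_range.2 (Nat.lt_of_succ_le h3))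
        rw [Encodable.encodek, Option.bind_some, ((ap_pre (join x h)).right.1 s).getI
          (Nat.lt_of_succ_le h3)] at this
        simp [hh, Encodable.encodek, chainSt] at this
  refine hc _ _ (fun s n v hv => ?_) (fun n => ?_)
  · obtain ⟨st, h1, h2⟩ := Option.bind_eq_some_iff.1 hv
    have := hsound s (n + 1) st h1
    subst this
    split_ifs at h2 with hlen
    have hl : IsPre (leftL (pre (join x h) s)) x := (ap_pre (join x h)).left.1 s
    rw [← hY n, ← Option.some.inj h2, hl, pre_take x hlen]
  · obtain ⟨s, h1, h2⟩ := ((hcomplete (n + 1)).and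
      ((ap_pre (join x h)).left.2 (chainSt T x (n + 1)).length)).exists
    refine ⟨s, ?_⟩
    simp only [G, h1, Option.bind_some, if_pos h2]
    simp

/-! ### Coding a set above a single parameter -/

/-- Position `p` lies in a column committed by `xp`, past the current stage `a`. -/
def committed (a xp : List Bool) (p : ℕ) : Bool :=
  decide (a.length ≤ p) && xp.getI p.unpair.1

/-- `τ` is an admissible proper extension of `a`. -/
def AdmExt (a xp τ : List Bool) : Prop :=
  a.length < τ.length ∧ τ.take a.length = a ∧
    ∀ p < τ.length, committed a xp p = true →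
      τ.getI p = indepFam p.unpair.1 p.unpair.2

/-- The extension that decides nothing. -/
noncomputable def defExt (a xp : List Bool) : List Bool :=
  a ++ [xp.getI a.length.unpair.1 && indepFam a.length.unpair.1 a.length.unpair.2]

lemma admExt_defExt (a xp : List Bool) : AdmExt a xp (defExt a xp) := by
  refine ⟨by simp [defExt], by simp [defExt], fun p hp hc => ?_⟩
  simp [committed] at hc
  obtain rfl : p = a.length := by simp [defExt] at hp; omega
  simp [defExt, List.getI_eq_getElem, hc.2]

/-- A good extension for the requirement with number `k`. -/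
def GoodExt (k : ℕ) (a xp τ : List Bool) : Prop :=
  AdmExt a xp τ ∧ ∃ d : Code, Encodable.decode (α := Code) k.unpair.1 = some d ∧
    ∃ i v, ev d τ i = some v ∧ v ≠ indepFam k.unpair.2 i

open Classical in
/-- The table of extensions for the coding set. -/
noncomputable def thickT (k : ℕ) (a xp : List Bool) : List Bool :=
  if h : ∃ τ, GoodExt k a xp τ then h.choose else defExt a xp

lemma admExt_thickT (k : ℕ) (a xp : List Bool) : AdmExt a xp (thickT k a xp) := by
  unfold thickT
  split_ifs with h
  · exact h.choose_spec.1
  · exact admExt_defExt a xp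

/-- The coding set of `x`. -/
noncomputable def thick (x : Seq) : Seq := fun i => (chainSt thickT x (i + 1)).getI i

lemma thickT_length (x : Seq) (k : ℕ) : k ≤ (chainSt thickT x k).length := by
  induction k with
  | zero => simp
  | succ k ih =>
    have := (admExt_thickT k (chainSt thickT x k) (pre x (chainSt thickT x k).length)).1
    simp only [chainSt]; omega

lemma thick_stage {x : Seq} {j k : ℕ} (hjk : j ≤ k) {i : ℕ}
    (hi : i < (chainSt thickT x j).length) :
    i < (chainSt thickT x k).length ∧
      (chainSt thickT x k).getI i = (chainSt thickT x j).getI i := by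
  induction k, hjk using Nat.le_induction with
  | base => exact ⟨hi, rfl⟩
  | succ k _ ih =>
    obtain ⟨h1, h2, -⟩ := admExt_thickT k (chainSt thickT x k) (pre x (chainSt thickT x k).length)
    refine ⟨by simp only [chainSt]; omega, ?_⟩
    rw [← ih.2]
    conv_rhs => rw [← h2]
    simp only [chainSt]
    rw [List.getI_eq_getElem _ (by omega), List.getI_eq_getElem _ (by simp; omega)]
    simp

lemma isPre_thick (x : Seq) (k : ℕ) : IsPre (chainSt thickT x k) (thick x) := by
  refine isPre_of_getElem? fun i hi => ?_
  have h1 : i < (chainSt thickT x (i + 1)).length := thickT_length x (i + 1)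
  rw [List.getElem?_eq_getElem hi]
  simp only [thick, Option.some.injEq]
  rw [← List.getI_eq_getElem]
  rcases le_total k (i + 1) with h | h
  · exact ((thick_stage h hi).2).symm
  · exact (thick_stage h h1).2

lemma thick_column {x : Seq} {k p : ℕ} (hp : (chainSt thickT x k).length ≤ p)
    (hm : p.unpair.1 < (chainSt thickT x k).length) (hx : x p.unpair.1 = true) :
    thick x p = indepFam p.unpair.1 p.unpair.2 := by
  have hex : ∃ j, p < (chainSt thickT x j).length := ⟨p + 1, thickT_length x (p + 1)⟩
  set j := Nat.find hex with hj
  have hpj : p < (chainSt thickT x j).length := Nat.find_spec hex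
  have hkj : k < j := by
    by_contra hcon
    have := (thick_stage (le_of_not_gt hcon) hpj).1
    omega
  obtain ⟨j', hj'⟩ : ∃ j', j = j' + 1 := ⟨j - 1, by omega⟩
  have hnp : ¬ p < (chainSt thickT x j').length := Nat.find_min hex (by omega)
  have hlen : (chainSt thickT x k).length ≤ (chainSt thickT x j').length := by
    rcases Nat.eq_zero_or_pos (chainSt thickT x k).length with h | h
    · omega
    · have := (thick_stage (x := x) (i := (chainSt thickT x k).length - 1)
        (show k ≤ j' by omega) (by omega)).1
      omega
  obtain ⟨-, -, h3⟩ := admExt_thickT j' (chainSt thickT x j') (pre x (chainSt thickT x j').length)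
  have hpj' : p < (chainSt thickT x (j' + 1)).length := hj' ▸ hpj
  rw [← h3 p hpj', ← (isPre_thick x (j' + 1)).getI hpj']
  · rfl
  · simp only [committed, Bool.and_eq_true, decide_eq_true_eq]
    exact ⟨by omega, by rw [pre_getI (by omega)]; exact hx⟩

lemma thick_spec (x : Seq) (n : ℕ) : Rd (indepFam n) (thick x) ↔ x n = true := by
  constructor
  · intro hrd
    by_contra hxn
    simp only [Bool.not_eq_true] at hxn
    obtain ⟨d, hd⟩ := hrd
    set k := Nat.pair (Encodable.encode d) n with hk
    set a := chainSt thickT x k with ha
    set xp := pre x a.length with hxp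
    by_cases hgood : ∃ τ, GoodExt k a xp τ
    · obtain ⟨τ, ⟨hadm, d', hd', i, v, hev, hne⟩, hτ⟩ :
          ∃ τ, GoodExt k a xp τ ∧ chainSt thickT x (k + 1) = τ :=
        ⟨_, hgood.choose_spec, by simp only [chainSt, thickT, ← ha, ← hxp]; rw [dif_pos hgood]⟩
      simp only [hk, Nat.unpair_pair, Encodable.encodek, Option.some.injEq] at hd' hne
      subst hd'
      exact hne (ev_isPre hd (hτ ▸ isPre_thick x (k + 1)) hev)
    · have hxpn : xp.getI n = false := by
        by_cases hn : n < a.length
        · rw [hxp, pre_getI hn, hxn]
        · rw [List.getI_eq_default _ (by simp [hxp]; omega)]; rfl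
      refine indepFam_spec hxpn ?_
      let okB : List Bool → List Bool → Bool := fun σ τ =>
        decide ((a.length < τ.length ∧ τ.length ≤ σ.length ∧ τ.take a.length = a) ∧
          (List.range τ.length).map (fun p => committed a xp p && τ.getI p) =
            (List.range τ.length).map (fun p => committed a xp p && σ.getI p))
      let G : List Bool → ℕ → Option Bool := fun σ i =>
        ((List.range σ.length).filterMap fun j =>
          (Encodable.decode (α := List Bool) j).bind fun τ =>
            if okB σ τ = true then ev d τ i else none).head?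
      have hcomm : Primrec (committed a xp) :=
        Primrec.and.comp (Primrec.nat_le.decide.comp (Primrec.const _) Primrec.id)
          (Primrec.list_getI.comp (Primrec.const xp) (Primrec.fst.comp Primrec.unpair))
      have hok : Primrec₂ okB := by
        refine PrimrecPred.decide (((Primrec.nat_lt.comp (Primrec.const _)
          (Primrec.list_length.comp Primrec.snd)).and
          ((Primrec.nat_le.comp (Primrec.list_length.comp Primrec.snd)
            (Primrec.list_length.comp Primrec.fst)).and
            (Primrec.eq.comp (Primrec.list_take.comp (Primrec.const _) Primrec.snd)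
              (Primrec.const a)))).and ?_)
        refine Primrec.eq.comp
          (Primrec.list_map (Primrec.list_range.comp (Primrec.list_length.comp Primrec.snd)) ?_)
          (Primrec.list_map (Primrec.list_range.comp (Primrec.list_length.comp Primrec.snd)) ?_)
        · exact (Primrec.and.comp (hcomm.comp Primrec.snd)
            (Primrec.list_getI.comp (Primrec.snd.comp Primrec.fst) Primrec.snd)).to₂
        · exact (Primrec.and.comp (hcomm.comp Primrec.snd)
            (Primrec.list_getI.comp (Primrec.fst.comp Primrec.fst) Primrec.snd)).to₂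
      have hG : Computable₂ G := by
        refine (Primrec.list_head?.comp (Primrec.listFilterMap (Primrec.list_range.comp
          (Primrec.list_length.comp Primrec.fst)) ?_)).to_comp
        unfold Primrec₂
        refine Primrec.option_bind (Primrec.decode.comp Primrec.snd) ?_
        refine (Primrec.ite (Primrec.eq.comp (hok.comp
            (Primrec.fst.comp (Primrec.fst.comp Primrec.fst)) Primrec.snd) (Primrec.const true))
          (primrec_ev.comp (Primrec.pair (Primrec.pair (Primrec.const d) Primrec.snd)
            (Primrec.snd.comp (Primrec.fst.comp Primrec.fst)))) (Primrec.const none)).to₂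
      obtain ⟨c, hc⟩ := exists_code_of_search hG
      refine ⟨c, hc _ _ (fun s i v hv => ?_) (fun i => ?_)⟩
      · have := List.mem_of_mem_head? (Option.mem_def.2 hv)
        simp only [List.mem_filterMap, List.mem_range, Option.bind_eq_some_iff] at this
        obtain ⟨j, -, τ, -, hτ⟩ := this
        split_ifs at hτ with hokτ
        simp only [okB, decide_eq_true_eq] at hokτ
        obtain ⟨⟨h1, h2, h3⟩, h4⟩ := hokτ
        simp only [pre_length] at h2
        have hadm : AdmExt a xp τ := by
          refine ⟨h1, h3, fun p hp hcp => ?_⟩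
          have := List.map_inj_left.1 h4 p (List.mem_range.2 hp)
          rw [hcp, pre_getI (by omega)] at this
          simp only [committed, Bool.and_eq_true] at hcp
          simpa [cols, hcp.2] using this
        by_contra hne
        exact hgood ⟨τ, hadm, d, by simp [hk], i, v, hτ, by simpa [hk] using hne⟩
      · obtain ⟨L, hL⟩ := hd i
        set L' := max L (a.length + 1)
        set τ := pre (thick x) L' with hτdef
        refine ⟨max L' (Encodable.encode τ + 1), fun hnone => ?_⟩
        simp only [G, List.head?_eq_none_iff, List.filterMap_eq_nil_iff] at hnone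
        have := hnone (Encodable.encode τ) (List.mem_range.2 (by simp))
        have hokτ : okB (pre (cols indepFam xp) (max L' (Encodable.encode τ + 1))) τ = true := by
          simp only [okB, decide_eq_true_eq, hτdef, pre_length]
          refine ⟨⟨by omega, le_max_left _ _, ?_⟩, List.map_inj_left.2 fun p hp => ?_⟩
          · rw [pre_take _ (by omega)]; exact (isPre_thick x k).symm
          · rw [List.mem_range] at hp
            rw [pre_getI hp, pre_getI (by omega)]
            cases hcp : committed a xp p
            · rfl
            · simp only [committed, Bool.and_eq_true, decide_eq_true_eq] at hcp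
              have hlt : p.unpair.1 < a.length := by
                by_contra hcon
                rw [List.getI_eq_default _ (by simp [hxp]; omega)] at hcp
                exact Bool.false_ne_true hcp.2
              have hx1 : x p.unpair.1 = true := by
                rw [← pre_getI (X := x) hlt]; exact hcp.2
              rw [thick_column hcp.1 hlt hx1]
              simp [cols, hcp.2]
        rw [Encodable.encodek, Option.bind_some, if_pos hokτ, hτdef,
          ev_mono (le_max_left L (a.length + 1)) hL] at this
        simp at this
  · intro hx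
    set L0 := (chainSt thickT x (n + 1)).length
    have hn : n < L0 := thickT_length x (n + 1)
    obtain ⟨c, hc⟩ := exists_code_of_search (g := fun σ i =>
      if i < L0 then (pre (indepFam n) L0)[i]? else σ[Nat.pair n i]?)
      (Primrec.ite (Primrec.nat_lt.comp Primrec.snd (Primrec.const L0))
        (Primrec.list_getElem?.comp (Primrec.const (pre (indepFam n) L0)) Primrec.snd)
        (Primrec.list_getElem?.comp Primrec.fst
          (Primrec₂.natPair.comp (Primrec.const n) Primrec.snd))).to_comp.to₂
    refine ⟨c, hc _ _ (fun s i v hv => ?_) (fun i => ⟨Nat.pair n i + 1, ?_⟩)⟩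
    · split_ifs at hv with hi
      · rw [pre_getElem?, if_pos hi] at hv
        exact (Option.some.inj hv).symm
      · rw [pre_getElem?] at hv
        split_ifs at hv with hs
        cases hv
        rw [thick_column (k := n + 1) (by have := Nat.right_le_pair n i; omega)
          (by simpa using hn) (by simpa using hx)]
        simp
    · split_ifs with hi
      · simp [pre_getElem?, hi]
      · simp [pre_getElem?]

/-- The candidate set decoded from `Z` by the code `c`. -/
def DecodeSet (A : ℕ → Seq) (P : Seq) (c : Code) (n : ℕ) : Set Seq :=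
  {Z | ∃ d : Code, ∀ i, ∃ s, ev d (out c (pre (join Z P) s)) i = some (A n i)}

lemma baireMeasurable_decodeSet (A : ℕ → Seq) (P : Seq) (c : Code) (n : ℕ) :
    BaireMeasurableSet (DecodeSet A P c n) := by
  have hcont : Continuous fun Z : Seq => join Z P := continuous_pi fun i => by
    unfold join
    by_cases h : i % 2 = 0
    · simp only [h, if_true]; exact continuous_apply _
    · simp only [h, if_false]; exact continuous_const
  have : DecodeSet A P c n = ⋃ d : Code, ⋂ i, ⋃ s,
      (fun Z => join Z P) ⁻¹' {W : Seq | ev d (out c (pre W s)) i = some (A n i)} := by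
    ext Z; simp [DecodeSet]
  rw [this]
  exact BaireMeasurableSet.iUnion fun d => BaireMeasurableSet.iInter fun i =>
    BaireMeasurableSet.iUnion fun s =>
      ((isOpen_pre s fun l => ev d (out c l) i = some (A n i)).preimage hcont).baireMeasurableSet

open Classical in
/-- An automorphism admits countably many Baire measurable candidates for decoding. -/
lemma exists_options (π : Auto) : ∃ J : Code → ℕ → Set Seq,
    (∀ c n, BaireMeasurableSet (J c n)) ∧
    ∀ x Z, Eqv Z (π.F x) → ∃ c, (fun n => decide (Z ∈ J c n)) = x := by
  obtain ⟨h, hh⟩ := exists_chain thickT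
  obtain ⟨c0, hc0⟩ := hh (fun p => p.2.1.getI p.1)
    (Primrec.list_getI.comp (Primrec.fst.comp Primrec.snd) Primrec.fst)
  let A : ℕ → Seq := fun n => π.F (indepFam n)
  refine ⟨DecodeSet A (π.F h), baireMeasurable_decodeSet A (π.F h), fun x Z hZ => ?_⟩
  have h1 : Rd (thick x) (join x h) := ⟨c0, hc0 x (thick x) fun n => rfl⟩
  have h2 : Rd (π.F (thick x)) (join Z (π.F h)) :=
    ((π.mono_iff _ _).2 h1).trans ((π.map_join x h).1.trans
      ((hZ.2.trans (rd_join_left _ _)).join (rd_join_right _ _)))
  obtain ⟨c, hc⟩ := h2
  refine ⟨c, funext fun n => ?_⟩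
  have hiff : Z ∈ DecodeSet A (π.F h) c n ↔ Rd (A n) (π.F (thick x)) := by
    constructor
    · rintro ⟨d, hd⟩
      refine ⟨d, fun i => ?_⟩
      obtain ⟨s, hs⟩ := hd i
      have hp : IsPre (out c (pre (join Z (π.F h)) s)) (π.F (thick x)) := out_isPre hc s
      exact ⟨_, hp ▸ hs⟩
    · rintro ⟨d, hd⟩
      refine ⟨d, fun i => ?_⟩
      obtain ⟨L, hL⟩ := hd i
      obtain ⟨s, hs⟩ := (out_length hc L).exists
      refine ⟨s, ?_⟩
      have hp : IsPre (out c (pre (join Z (π.F h)) s)) (π.F (thick x)) := out_isPre hc s
      rw [hp]
      exact ev_mono hs hL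
  have hiff' : Z ∈ DecodeSet A (π.F h) c n ↔ x n = true := by
    rw [hiff, π.mono_iff, thick_spec]
  cases hx : x n <;> simp [hiff', hx]

/-- Flip `l` by `xp`. -/
def flipL (l xp : List Bool) : List Bool :=
  (List.range l.length).map fun i => l.getI i ^^ xp.getI i

lemma exists_extension {D : Set Seq} (hD : IsOpen D) (hd : Dense D) (l : List Bool) :
    ∃ τ : List Bool, l.length < τ.length ∧ τ.take l.length = l ∧
      {g : Seq | pre g τ.length = τ} ⊆ D := by
  obtain ⟨g, hgl, hgD⟩ := hd.inter_open_nonempty {g : Seq | pre g l.length = l}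
    (isOpen_pre _ fun r => r = l) ⟨fun i => l.getI i,
      List.ext_getElem (by simp) fun i _ h2 => by simp [pre, List.getI_eq_getElem _ h2]⟩
  obtain ⟨M, hM⟩ := exists_cyl_subset hD hgD
  refine ⟨pre g (max M (l.length + 1)), by simp, ?_, fun f hf => hM fun i hi => ?_⟩
  · rw [pre_take _ (by omega)]; exact hgl
  · simp only [pre_length, Set.mem_ofPred_eq, pre_eq_iff] at hf
    exact hf i (by omega)

open Classical in
/-- Near every automorphism there is a parameter bounding it on a residual set. -/
lemma exists_generic_bound (π : Auto) : ∃ (b : Seq) (D : ℕ → Set Seq),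
    (∀ k, IsOpen (D k) ∧ Dense (D k)) ∧ ∀ y, (∀ k, y ∈ D k) → Rd (π.F y) (join y b) := by
  obtain ⟨J, hJ, hopt⟩ := exists_options π.symm
  choose U hUo hU using fun c n => (hJ c n).residualEq_isOpen
  let V : Code → ℕ → Bool → Set Seq := fun c n v =>
    if v = true then U c n else (closure (U c n))ᶜ
  have hres : {y | ∀ c n, (y ∈ J c n ↔ y ∈ U c n) ∧ (y ∈ U c n ∨ y ∈ (closure (U c n))ᶜ)}
      ∈ residual Seq := by
    simp only [Set.ofPred_forall]
    refine countable_iInter_mem.2 fun c => countable_iInter_mem.2 fun n => ?_
    have h2 : U c n ∪ (closure (U c n))ᶜ ∈ residual Seq :=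
      residual_of_dense_open ((hUo c n).union isClosed_closure.isOpen_compl) (by
        rw [dense_iff_inter_open]
        intro W hW hne
        by_cases hWU : (W ∩ U c n).Nonempty
        · obtain ⟨w, hw⟩ := hWU; exact ⟨w, hw.1, Or.inl hw.2⟩
        · obtain ⟨w, hw⟩ := hne
          refine ⟨w, hw, Or.inr fun hcl => ?_⟩
          exact hWU (mem_closure_iff.1 hcl W hW hw))
    filter_upwards [(hU c n).mem_iff, h2] with y h1 h2
    exact ⟨h1, h2⟩
  obtain ⟨t, hts, htG, htd⟩ := mem_residual.1 hres
  obtain ⟨D, hD, rfl⟩ := isGδ_iff_eq_iInter_nat.1 htG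
  refine ⟨fun q => match Encodable.decode (α := (Code × ℕ × Bool) × List Bool) q with
    | some ((c, n, v), τ) => decide ({g : Seq | pre g τ.length = τ} ⊆ V c n v)
    | none => false, D, fun k => ⟨hD k, htd.mono (iInter_subset _ k)⟩, fun y hy => ?_⟩
  have hyt := hts (mem_iInter.2 hy)
  obtain ⟨c, hc⟩ := hopt (π.F y) y (π.inv_F y).symm
  let G : List Bool → ℕ → Option Bool := fun σ n =>
    ((List.range (rightL σ).length).filterMap fun j =>
      (Encodable.decode (α := (Code × ℕ × Bool) × List Bool) j).bind fun q =>
        if (q.1.1 = c ∧ q.1.2.1 = n) ∧ ((rightL σ).getI j = true ∧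
          q.2.length ≤ (leftL σ).length ∧ (leftL σ).take q.2.length = q.2)
        then some q.1.2.2 else none).head?
  have hG : Computable₂ G := by
    refine (Primrec.list_head?.comp (Primrec.listFilterMap (Primrec.list_range.comp
      (Primrec.list_length.comp (primrec_rightL.comp Primrec.fst))) ?_)).to_comp
    unfold Primrec₂
    refine Primrec.option_bind (Primrec.decode.comp Primrec.snd) ?_
    exact (Primrec.ite
      (((Primrec.eq.comp (Primrec.fst.comp (Primrec.fst.comp Primrec.snd)) (Primrec.const c)).and
        (Primrec.eq.comp (Primrec.fst.comp (Primrec.snd.comp (Primrec.fst.comp Primrec.snd)))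
          (Primrec.snd.comp (Primrec.fst.comp Primrec.fst)))).and
      ((Primrec.eq.comp (Primrec.list_getI.comp (primrec_rightL.comp
          (Primrec.fst.comp (Primrec.fst.comp Primrec.fst))) (Primrec.snd.comp Primrec.fst))
          (Primrec.const true)).and
        ((Primrec.nat_le.comp (Primrec.list_length.comp (Primrec.snd.comp Primrec.snd))
          (Primrec.list_length.comp (primrec_leftL.comp
            (Primrec.fst.comp (Primrec.fst.comp Primrec.fst))))).and
        (Primrec.eq.comp (Primrec.list_take.comp
          (Primrec.list_length.comp (Primrec.snd.comp Primrec.snd))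
          (primrec_leftL.comp (Primrec.fst.comp (Primrec.fst.comp Primrec.fst))))
          (Primrec.snd.comp Primrec.snd)))))
      (Primrec.option_some.comp (Primrec.snd.comp (Primrec.snd.comp
        (Primrec.fst.comp Primrec.snd)))) (Primrec.const none)).to₂
  obtain ⟨e, he⟩ := exists_code_of_search hG
  set b : Seq := fun q => match Encodable.decode (α := (Code × ℕ × Bool) × List Bool) q with
    | some ((c, n, v), τ) => decide ({g : Seq | pre g τ.length = τ} ⊆ V c n v)
    | none => false with hb
  have hFn : ∀ n v, y ∈ V c n v → π.F y n = v := by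
    intro n v hv
    rw [← hc]
    have := hyt c n
    cases v
    · simp only [V, Bool.false_eq_true, if_false] at hv
      simp only [decide_eq_false_iff_not, this.1]
      exact fun hU => hv (subset_closure hU)
    · simp only [V, if_true] at hv
      simp only [decide_eq_true_eq, this.1]
      exact hv
  refine ⟨e, he _ _ (fun s n v hv => ?_) (fun n => ?_)⟩
  · have := List.mem_of_mem_head? (Option.mem_def.2 hv)
    simp only [List.mem_filterMap, List.mem_range, Option.bind_eq_some_iff] at this
    obtain ⟨j, hj, ⟨⟨c', n', v'⟩, τ⟩, hq, hif⟩ := this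
    split_ifs at hif with hcond
    obtain ⟨⟨rfl, rfl⟩, hbit, hlen, htake⟩ := hcond
    obtain rfl : v' = v := Option.some.inj hif
    have hl : IsPre (leftL (pre (join y b) s)) y := (ap_pre (join y b)).left.1 s
    have hr : IsPre (rightL (pre (join y b) s)) b := (ap_pre (join y b)).right.1 s
    rw [hr.getI hj] at hbit
    simp only [hb, hq, decide_eq_true_eq] at hbit
    refine (hFn _ _ (hbit ?_)).symm
    simp only [Set.mem_ofPred_eq]
    rw [← pre_take y hlen, ← hl]
    exact htake
  · obtain ⟨v, hv⟩ : ∃ v, y ∈ V c n v := by
      rcases (hyt c n).2 with h | h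
      · exact ⟨true, by simpa [V] using h⟩
      · exact ⟨false, by simpa [V] using h⟩
    have hVo : IsOpen (V c n v) := by
      cases v
      · simp [V]
      · simpa [V] using hUo c n
    obtain ⟨M, hM⟩ := exists_cyl_subset hVo hv
    set q := Encodable.encode ((c, n, v), pre y M) with hq
    obtain ⟨s, h1, h2⟩ := (((ap_pre (join y b)).left.2 M).and
      ((ap_pre (join y b)).right.2 (q + 1))).exists
    refine ⟨s, fun hnone => ?_⟩
    simp only [G, List.head?_eq_none_iff, List.filterMap_eq_nil_iff] at hnone
    have := hnone q (List.mem_range.2 (Nat.lt_of_succ_le h2))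
    have hl : IsPre (leftL (pre (join y b) s)) y := (ap_pre (join y b)).left.1 s
    have hr : IsPre (rightL (pre (join y b) s)) b := (ap_pre (join y b)).right.1 s
    have hbit : b q = true := by
      simp only [hb, hq, Encodable.encodek, decide_eq_true_eq, pre_length]
      exact fun g hg => hM (pre_eq_iff.1 hg)
    rw [hq, Encodable.encodek, Option.bind_some, ← hq, hr.getI (Nat.lt_of_succ_le h2),
      if_pos] at this
    · simp at this
    · refine ⟨⟨rfl, rfl⟩, hbit, by simpa using h1, ?_⟩
      simp only [pre_length]
      rw [hl, pre_take y h1]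

/-- Every set is the symmetric difference of two generic sets computable from it and a parameter. -/
lemma exists_split (D : ℕ → Set Seq) (hD : ∀ k, IsOpen (D k) ∧ Dense (D k)) :
    ∃ h : Seq, ∀ x, ∃ y : Seq, Rd y (join x h) ∧
      (∀ k, y ∈ D k) ∧ ∀ k, (fun i => y i ^^ x i) ∈ D k := by
  choose E hEl hEt hEs using fun k l => exists_extension (hD k).1 (hD k).2 l
  let T : ℕ → List Bool → List Bool → List Bool := fun k st xp => E (k / 2) (flipL st xp)
  obtain ⟨h, hh⟩ := exists_chain T
  obtain ⟨c, hc⟩ := hh
    (fun p => p.2.1.getI p.1 ^^ (decide (p.1 % 2 = 0) && p.2.2.getI p.1))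
    ((Primrec.dom_bool₂ xor).comp (Primrec.list_getI.comp (Primrec.fst.comp Primrec.snd) Primrec.fst)
      (Primrec.and.comp (PrimrecPred.decide (Primrec.eq.comp
          (Primrec.nat_mod.comp Primrec.fst (Primrec.const 2)) (Primrec.const 0)))
        (Primrec.list_getI.comp (Primrec.snd.comp Primrec.snd) Primrec.fst)))
  refine ⟨h, fun x => ?_⟩
  let side : ℕ → ℕ → Bool := fun k i =>
    (chainSt T x k).getI i ^^ (decide (k % 2 = 1) && x i)
  have hflip : ∀ l : List Bool, ∀ i < l.length,
      (flipL l (pre x l.length)).getI i = (l.getI i ^^ x i) := fun l i hi => by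
    simp [flipL, List.getI_eq_getElem, hi, pre]
  have hlen : ∀ k, (chainSt T x k).length < (chainSt T x (k + 1)).length := fun k => by
    have := hEl (k / 2) (flipL (chainSt T x k) (pre x (chainSt T x k).length))
    simp only [flipL, List.length_map, List.length_range] at this
    exact this
  have hge : ∀ k, k ≤ (chainSt T x k).length := fun k => by
    induction k with
    | zero => simp
    | succ k ih => have := hlen k; omega
  have hstep : ∀ k, ∀ i < (chainSt T x k).length, side (k + 1) i = side k i := by
    intro k i hi
    have h1 := hEt (k / 2) (flipL (chainSt T x k) (pre x (chainSt T x k).length))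
    have hl : (flipL (chainSt T x k) (pre x (chainSt T x k).length)).length =
        (chainSt T x k).length := by simp [flipL]
    have h2 : (chainSt T x (k + 1)).getI i = ((chainSt T x k).getI i ^^ x i) := by
      have e := congrArg (fun l : List Bool => l.getI i) h1
      rw [← hflip _ i hi, ← e, hl]
      show (E (k / 2) (flipL (chainSt T x k) (pre x (chainSt T x k).length))).getI i = _
      have hk : (chainSt T x k).length <
          (E (k / 2) (flipL (chainSt T x k) (pre x (chainSt T x k).length))).length := hlen k
      rw [List.getI_eq_getElem _ (by omega), List.getI_eq_getElem _ (by rw [List.length_take]; omega)]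
      simp
    simp only [side, h2]
    have : decide ((k + 1) % 2 = 1) = !decide (k % 2 = 1) := by
      rcases Nat.mod_two_eq_zero_or_one k with hk | hk <;> simp [Nat.add_mod, hk]
    rw [this]
    cases decide (k % 2 = 1) <;> cases (chainSt T x k).getI i <;> cases x i <;> rfl
  have hstab : ∀ j k, j ≤ k → ∀ i < (chainSt T x j).length,
      side k i = side j i ∧ i < (chainSt T x k).length := by
    intro j k hjk
    induction k, hjk using Nat.le_induction with
    | base => exact fun i hi => ⟨rfl, hi⟩
    | succ k _ ih =>
      intro i hi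
      obtain ⟨h1, h2⟩ := ih i hi
      exact ⟨(hstep k i h2).trans h1, h2.trans (hlen k)⟩
  let y : Seq := fun i => side (i + 1) i
  have hy : ∀ k, ∀ i < (chainSt T x k).length, side k i = y i := by
    intro k i hi
    rcases le_total k (i + 1) with hle | hle
    · exact ((hstab k _ hle i hi).1).symm
    · exact (hstab _ k hle i (hge (i + 1))).1
  have hmem : ∀ k, (fun i => y i ^^ (decide (k % 2 = 0) && x i)) ∈ D (k / 2) := by
    intro k
    refine hEs (k / 2) (flipL (chainSt T x k) (pre x (chainSt T x k).length)) ?_
    show pre _ (chainSt T x (k + 1)).length = chainSt T x (k + 1)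
    refine List.ext_getElem (by simp) fun i hi hi' => ?_
    rw [← List.getI_eq_getElem _ hi', ← List.getI_eq_getElem _ hi,
      pre_getI hi', ← hy (k + 1) i hi']
    simp only [side]
    have : decide ((k + 1) % 2 = 1) = decide (k % 2 = 0) := by
      rcases Nat.mod_two_eq_zero_or_one k with hk | hk <;> simp [Nat.add_mod, hk]
    rw [this]
    cases decide (k % 2 = 0) <;> cases (chainSt T x (k + 1)).getI i <;> cases x i <;> rfl
  refine ⟨y, ⟨c, hc x y fun n => ?_⟩, fun k => ?_, fun k => ?_⟩
  · simp only [y, side]
    rw [pre_getI (hge (n + 1))]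
    have : decide ((n + 1) % 2 = 1) = decide (n % 2 = 0) := by
      rcases Nat.mod_two_eq_zero_or_one n with hk | hk <;> simp [Nat.add_mod, hk]
    rw [this]
  · have := hmem (2 * k + 1)
    simpa [show (2 * k + 1) / 2 = k by omega, Nat.add_mod] using this
  · have := hmem (2 * k)
    simpa using this

lemma rd_xor {X Y Z : Seq} (h₁ : Rd X Z) (h₂ : Rd Y Z) : Rd (fun i => X i ^^ Y i) Z := by
  refine Rd.trans ?_ (h₁.join h₂)
  obtain ⟨c, hc⟩ := exists_code_of_search (g := fun σ i =>
    (σ[2 * i]?).bind fun a => (σ[2 * i + 1]?).map fun b => a ^^ b)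
    (Primrec.option_bind (Primrec.list_getElem?.comp Primrec.fst
      (Primrec.nat_mul.comp (Primrec.const 2) Primrec.snd))
      (Primrec.option_map (Primrec.list_getElem?.comp (Primrec.fst.comp Primrec.fst)
        (Primrec.succ.comp (Primrec.nat_mul.comp (Primrec.const 2)
          (Primrec.snd.comp Primrec.fst))))
        ((Primrec.dom_bool₂ xor).comp (Primrec.snd.comp Primrec.fst) Primrec.snd).to₂).to₂).to_comp.to₂
  refine ⟨c, hc _ _ (fun s i v hv => ?_) (fun i => ⟨2 * i + 2, ?_⟩)⟩
  · rw [pre_getElem?, pre_getElem?] at hv
    split_ifs at hv <;> simp at hv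
    rw [← hv]
    simp [join, Nat.add_mod, show (2 * i + 1) / 2 = i by omega]
  · simp [pre_getElem?]

lemma rd_of_xor (x y : Seq) : Rd x (join y (fun i => y i ^^ x i)) := by
  have := rd_xor (rd_join_left y (fun i => y i ^^ x i)) (rd_join_right y (fun i => y i ^^ x i))
  convert this using 1
  funext i
  cases y i <;> cases x i <;> rfl

/-- Every automorphism of the degrees moves each set only below a fixed parameter. -/
theorem exists_parameter (π : Auto) : ∃ b, ∀ x, Eqv (join (π.F x) b) (join x b) := by
  obtain ⟨b₁, D₁, hD₁, hb₁⟩ := exists_generic_bound π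
  obtain ⟨b₂, D₂, hD₂, hb₂⟩ := exists_generic_bound π.symm
  let D : ℕ → Set Seq := fun k => if k % 2 = 0 then D₁ (k / 2) else D₂ (k / 2)
  have hD : ∀ k, IsOpen (D k) ∧ Dense (D k) := fun k => by
    simp only [D]; split_ifs
    · exact hD₁ _
    · exact hD₂ _
  obtain ⟨h, hh⟩ := exists_split D hD
  let B := join (join b₁ b₂) h
  have key : ∀ x, Rd B x → Rd (π.F x) x ∧ Rd (π.symm.F x) x := by
    intro x hBx
    obtain ⟨y, hy, hyD, hzD⟩ := hh x
    have hyx : Rd y x := hy.trans ((Rd.refl x).join ((rd_join_right _ h).trans hBx))
    have hzx : Rd (fun i => y i ^^ x i) x := rd_xor hyx (Rd.refl x)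
    have hxyz : Eqv (join y fun i => y i ^^ x i) x := ⟨hyx.join hzx, rd_of_xor x y⟩
    have hbx₁ : Rd b₁ x := (rd_join_left b₁ b₂).trans ((rd_join_left _ h).trans hBx)
    have hbx₂ : Rd b₂ x := (rd_join_right b₁ b₂).trans ((rd_join_left _ h).trans hBx)
    have hm₁ : ∀ w, (∀ k, w ∈ D k) → ∀ k, w ∈ D₁ k := fun w hw k => by
      simpa [D] using hw (2 * k)
    have hm₂ : ∀ w, (∀ k, w ∈ D k) → ∀ k, w ∈ D₂ k := fun w hw k => by
      simpa [D, Nat.add_mod, show (2 * k + 1) / 2 = k by omega] using hw (2 * k + 1)
    refine ⟨?_, ?_⟩
    · exact (π.congr hxyz.symm).1.trans ((π.map_join _ _).1.trans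
        (((hb₁ y (hm₁ y hyD)).trans (hyx.join hbx₁)).join
          ((hb₁ _ (hm₁ _ hzD)).trans (hzx.join hbx₁))))
    · exact (π.symm.congr hxyz.symm).1.trans ((π.symm.map_join _ _).1.trans
        (((hb₂ y (hm₂ y hyD)).trans (hyx.join hbx₂)).join
          ((hb₂ _ (hm₂ _ hzD)).trans (hzx.join hbx₂))))
  have fixed : ∀ x, Rd B x → Eqv (π.F x) x := fun x hx =>
    ⟨(key x hx).1, (π.F_inv x).2.trans ((π.mono_iff _ _).2 (key x hx).2)⟩
  refine ⟨B, fun x => ?_⟩
  have h1 := fixed (join x B) (rd_join_right x B)
  have h2 := fixed B (Rd.refl B)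
  refine Eqv.trans ⟨?_, ?_⟩ (Eqv.trans (π.map_join x B).symm h1)
  · exact (rd_join_left _ _).join (h2.2.trans (rd_join_right _ _))
  · exact (rd_join_left _ _).join (h2.1.trans (rd_join_right _ _))

end Vale.Agent.P327
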