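import Mathlib
import Vale.Agent.P327.Cone

/-!
`Rd` is Mathlib's Turing reducibility on characteristic functions, and the passage from
representatives to order automorphisms of the Turing degrees of sets.
-/

namespace Vale.Agent.P327

open Filter Encodable
open Nat.Partrec (Code)

/-- The characteristic function of a sequence, as a partial function. -/
def ch (X : Seq) : ℕ →. ℕ := fun n => Part.some (cond (X n) 1 0)

section
variable {O : Set (ℕ →. ℕ)}

lemma recIn_tot {g : ℕ → ℕ} (hg : Computable g) :
    Nat.RecursiveIn O (fun n => Part.some (g n)) :=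
  (Partrec.nat_iff.1 hg.partrec).recursiveIn

lemma recIn_comp {f g : ℕ → ℕ} (hf : Nat.RecursiveIn O (fun n => Part.some (f n)))
    (hg : Nat.RecursiveIn O (fun n => Part.some (g n))) :
    Nat.RecursiveIn O (fun n => Part.some (f (g n))) :=
  (hf.comp hg).of_eq fun n => by simp

lemma recIn_pair {f g : ℕ → ℕ} (hf : Nat.RecursiveIn O (fun n => Part.some (f n)))
    (hg : Nat.RecursiveIn O (fun n => Part.some (g n))) :
    Nat.RecursiveIn O (fun n => Part.some (Nat.pair (f n) (g n))) :=
  (hf.pair hg).of_eq fun n => by simp [Seq.seq]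

end

/-- Decoding of a finite oracle. -/
def dec (k : ℕ) : List Bool := (decode (α := List Bool) k).getD []

lemma dec_encode (l : List Bool) : dec (encode l) = l := by simp [dec]

lemma primrec_dec : Primrec dec := Primrec.option_getD.comp Primrec.decode (Primrec.const [])

lemma recIn_pre (X : Seq) :
    Nat.RecursiveIn {ch X} (fun p => Part.some (encode (pre X p.unpair.2))) := by
  let K : ℕ → ℕ := fun r =>
    encode (dec r.unpair.1.unpair.2.unpair.2 ++ [decide (r.unpair.2 ≠ 0)])
  have hK : Computable K := by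
    have hl : Primrec fun r : ℕ => r.unpair.1 := Primrec.fst.comp Primrec.unpair
    have hr : Primrec fun r : ℕ => r.unpair.2 := Primrec.snd.comp Primrec.unpair
    have h0 : Primrec fun v : ℕ => decide (v ≠ 0) :=
      (Primrec.nat_lt.decide.comp (Primrec.const 0) Primrec.id).of_eq fun v => by
        cases v <;> simp
    exact (Primrec.encode.comp (Primrec.list_concat.comp
      (primrec_dec.comp (hr.comp (hr.comp hl))) (h0.comp hr))).to_comp
  have hg : Nat.RecursiveIn {ch X} (fun q => Part.some (cond (X q.unpair.2.unpair.1) 1 0)) :=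
    recIn_comp (f := fun n => cond (X n) 1 0) (.oracle _ rfl)
      (recIn_tot (Computable.fst.comp (Computable.unpair.comp
        (Computable.snd.comp Computable.unpair))))
  have hh := recIn_comp (f := K) (recIn_tot hK) (recIn_pair (recIn_tot Computable.id) hg)
  refine (Nat.RecursiveIn.prec (recIn_tot (Computable.const (encode ([] : List Bool)))) hh).of_eq
    fun p => ?_
  simp only
  induction p.unpair.2 with
  | zero => rfl
  | succ k ih =>
    simp only at ih ⊢
    rw [ih, Part.bind_eq_bind, Part.bind_some]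
    congr 1
    simp only [K, id_eq, Nat.unpair_pair, dec_encode]
    congr 1
    simp [pre, List.range_succ]
    cases X k <;> rfl

/-- A reduction by finite approximations is a Turing reduction. -/
lemma recIn_of_rd {X Y : Seq} (h : Rd Y X) : Nat.RecursiveIn {ch X} (ch Y) := by
  obtain ⟨c, hc⟩ := h
  let E : ℕ → Option Bool := fun r => ev c (dec r.unpair.2) r.unpair.1
  have hE : Primrec E :=
    primrec_ev.comp (Primrec.pair
      (Primrec.pair (Primrec.const c) (primrec_dec.comp (Primrec.snd.comp Primrec.unpair)))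
      (Primrec.fst.comp Primrec.unpair))
  let T : ℕ → ℕ := fun r => bif (E r).isSome then 0 else 1
  let V : ℕ → ℕ := fun r => bif (E r).getD false then 1 else 0
  have hT : Computable T :=
    ((Primrec.dom_bool fun b => bif b then (0 : ℕ) else 1).comp
      ((Primrec.dom_finite Option.isSome).comp hE)).to_comp
  have hV : Computable V :=
    ((Primrec.dom_bool fun b => bif b then (1 : ℕ) else 0).comp
      ((Primrec.dom_finite fun o : Option Bool => o.getD false).comp hE)).to_comp
  have hp : Nat.RecursiveIn {ch X}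
      (fun p => Part.some (Nat.pair p.unpair.1 (encode (pre X p.unpair.2)))) :=
    recIn_pair (recIn_tot (Computable.fst.comp Computable.unpair)) (recIn_pre X)
  have hS := Nat.RecursiveIn.rfind (recIn_comp (recIn_tot hT) hp)
  refine (Nat.RecursiveIn.comp (recIn_comp (recIn_tot hV) hp)
    (Nat.RecursiveIn.pair (recIn_tot Computable.id) hS)).of_eq fun n => ?_
  have hex : ∃ s, (ev c (pre X s) n).isSome = true := by
    obtain ⟨s, hs⟩ := hc n
    exact ⟨s, by simp [hs]⟩
  have hfind : (Nat.rfind fun s => (fun m => decide (m = 0)) <$>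
      Part.some (T (Nat.pair (Nat.pair n s).unpair.1 (encode (pre X (Nat.pair n s).unpair.2)))))
        = Part.some (Nat.find hex) := by
    refine Part.eq_some_iff.2 (Nat.mem_rfind.2 ⟨?_, fun {m} hm => ?_⟩)
    · simp [T, E, dec_encode, Nat.find_spec hex]
    · have := Nat.find_min hex hm
      simp [T, E, dec_encode] at this ⊢
      simp [this]
  rw [hfind]
  obtain ⟨v, hv⟩ := Option.isSome_iff_exists.1 (Nat.find_spec hex)
  simp [Seq.seq, V, E, dec_encode, ch, hv, hc.sound hv]

/-- `f` is computed from `X` by a partial recursive search on prefixes. -/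
def Use (X : Seq) (f : ℕ →. ℕ) : Prop :=
  ∃ ψ : List Bool → ℕ →. ℕ, Partrec₂ ψ ∧ (∀ s n v, v ∈ ψ (pre X s) n → v ∈ f n) ∧
    ∀ n v, v ∈ f n → ∀ᶠ s in atTop, v ∈ ψ (pre X s) n

lemma use_of_partrec (X : Seq) {f : ℕ →. ℕ} (hf : Partrec f) : Use X f :=
  ⟨fun _ n => f n, (hf.comp Computable.snd).to₂, fun _ _ _ h => h,
    fun _ _ h => Eventually.of_forall fun _ => h⟩

lemma use_of_recIn {X : Seq} {f : ℕ →. ℕ} (hf : Nat.RecursiveIn {ch X} f) : Use X f := by
  induction hf with
  | zero => exact use_of_partrec X (Partrec.nat_iff.2 .zero)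
  | succ => exact use_of_partrec X (Partrec.nat_iff.2 .succ)
  | left => exact use_of_partrec X (Partrec.nat_iff.2 .left)
  | right => exact use_of_partrec X (Partrec.nat_iff.2 .right)
  | oracle g hg =>
    rw [Set.mem_singleton_iff] at hg
    subst hg
    refine ⟨fun σ n => (σ[n]?.map fun b => cond b 1 0 : Option ℕ),
      (Primrec.option_map Primrec.list_getElem?
        ((Primrec.dom_bool fun b => cond b (1 : ℕ) 0).comp₂ Primrec₂.right)).to_comp.ofOption.to₂,
      fun s n v hv => ?_, fun n v hv => ?_⟩
    · simp only [Part.mem_coe, Option.mem_def, Option.map_eq_some_iff, pre_getElem?] at hv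
      obtain ⟨b, hb, rfl⟩ := hv
      split_ifs at hb with hns
      obtain rfl := Option.some.inj hb
      exact Part.mem_some _
    · filter_upwards [eventually_gt_atTop n] with s hs
      obtain rfl := Part.mem_some_iff.1 hv
      simp only [Part.mem_coe, Option.mem_def, Option.map_eq_some_iff, pre_getElem?, if_pos hs]
      exact ⟨X n, rfl, rfl⟩
  | @pair f h _ _ ihf ihh =>
    obtain ⟨a, ha, sa, ea⟩ := ihf
    obtain ⟨b, hb, sb, eb⟩ := ihh
    refine ⟨fun σ n => (a σ n).bind fun i => (b σ n).map fun j => Nat.pair i j,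
      (ha.bind (Partrec.map (hb.comp (Computable.fst.comp Computable.fst)
        (Computable.snd.comp Computable.fst))
        (Primrec₂.natPair.to_comp.comp (Computable.snd.comp Computable.fst)
          Computable.snd).to₂).to₂).to₂, fun s n v hv => ?_, fun n v hv => ?_⟩
    · simp only [Part.mem_bind_iff, Part.mem_map_iff] at hv
      obtain ⟨i, hi, j, hj, rfl⟩ := hv
      simp only [Seq.seq, Part.map_eq_map, Part.mem_bind_iff, Part.mem_map_iff]
      exact ⟨_, ⟨i, sa s n i hi, rfl⟩, j, sb s n j hj, rfl⟩
    · simp only [Seq.seq, Part.map_eq_map, Part.mem_bind_iff, Part.mem_map_iff] at hv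
      obtain ⟨_, ⟨i, hi, rfl⟩, j, hj, rfl⟩ := hv
      filter_upwards [ea n i hi, eb n j hj] with s h1 h2
      simp only [Part.mem_bind_iff, Part.mem_map_iff]
      exact ⟨i, h1, j, h2, rfl⟩
  | @comp f h _ _ ihf ihh =>
    obtain ⟨a, ha, sa, ea⟩ := ihf
    obtain ⟨b, hb, sb, eb⟩ := ihh
    refine ⟨fun σ n => (b σ n).bind fun i => a σ i,
      (hb.bind (ha.comp (Computable.fst.comp Computable.fst) Computable.snd).to₂).to₂,
      fun s n v hv => ?_, fun n v hv => ?_⟩
    · obtain ⟨i, hi, hv⟩ := Part.mem_bind_iff.1 hv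
      exact Part.mem_bind_iff.2 ⟨i, sb s n i hi, sa s i v hv⟩
    · obtain ⟨i, hi, hv⟩ := Part.mem_bind_iff.1 hv
      filter_upwards [eb n i hi, ea i v hv] with s h1 h2
      exact Part.mem_bind_iff.2 ⟨i, h1, h2⟩
  | @prec f h _ _ ihf ihh =>
    obtain ⟨a, ha, sa, ea⟩ := ihf
    obtain ⟨b, hb, sb, eb⟩ := ihh
    refine ⟨fun σ p => p.unpair.2.rec (a σ p.unpair.1)
      fun y IH => IH.bind fun i => b σ (Nat.pair p.unpair.1 (Nat.pair y i)), ?_, ?_, ?_⟩
    · exact (Partrec.nat_rec
        (Computable.snd.comp (Computable.unpair.comp Computable.snd))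
        (ha.comp Computable.fst (Computable.fst.comp (Computable.unpair.comp Computable.snd)))
        (hb.comp (Computable.fst.comp Computable.fst)
          (Primrec₂.natPair.to_comp.comp
            (Computable.fst.comp (Computable.unpair.comp
              (Computable.snd.comp Computable.fst)))
            (Primrec₂.natPair.to_comp.comp (Computable.fst.comp Computable.snd)
              (Computable.snd.comp Computable.snd)))).to₂).to₂
    · intro s p v hv
      simp only at hv ⊢
      revert v
      induction p.unpair.2 with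
      | zero => exact fun v hv => sa s _ v hv
      | succ k ih =>
        intro v hv
        obtain ⟨i, hi, hv⟩ := Part.mem_bind_iff.1 hv
        exact Part.mem_bind_iff.2 ⟨i, ih i hi, sb s _ v hv⟩
    · intro p v hv
      simp only at hv ⊢
      revert v
      induction p.unpair.2 with
      | zero => exact fun v hv => ea _ v hv
      | succ k ih =>
        intro v hv
        obtain ⟨i, hi, hv⟩ := Part.mem_bind_iff.1 hv
        filter_upwards [ih i hi, eb _ v hv] with s h1 h2
        exact Part.mem_bind_iff.2 ⟨i, h1, h2⟩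
  | @rfind f _ ihf =>
    obtain ⟨a, ha, sa, ea⟩ := ihf
    refine ⟨fun σ n => Nat.rfind fun k => (a σ (Nat.pair n k)).map fun m => decide (m = 0),
      (Partrec.rfind (Partrec.map
        (ha.comp (Computable.fst.comp Computable.fst)
          (Primrec₂.natPair.to_comp.comp (Computable.snd.comp Computable.fst) Computable.snd))
        ((Primrec.eq.decide.comp Primrec.id (Primrec.const 0)).to_comp.comp
          Computable.snd).to₂).to₂).to₂, fun s n v hv => ?_, fun n v hv => ?_⟩
    · obtain ⟨h1, h2⟩ := Nat.mem_rfind.1 hv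
      refine Nat.mem_rfind.2 ⟨?_, fun {m} hm => ?_⟩
      · obtain ⟨i, hi, hi'⟩ := (Part.mem_map_iff _).1 h1
        exact (Part.mem_map_iff _).2 ⟨i, sa s _ i hi, hi'⟩
      · obtain ⟨i, hi, hi'⟩ := (Part.mem_map_iff _).1 (h2 hm)
        exact (Part.mem_map_iff _).2 ⟨i, sa s _ i hi, hi'⟩
    · obtain ⟨h1, h2⟩ := Nat.mem_rfind.1 hv
      obtain ⟨i, hi, hi'⟩ := (Part.mem_map_iff _).1 h1
      have hlow : ∀ᶠ s in atTop, ∀ m ∈ Set.Iio v,
          false ∈ (a (pre X s) (Nat.pair n m)).map fun m => decide (m = 0) :=
        (Set.finite_Iio v).eventually_all.2 fun m hm => by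
          obtain ⟨j, hj, hj'⟩ := (Part.mem_map_iff _).1 (h2 hm)
          filter_upwards [ea _ j hj] with s hs
          exact (Part.mem_map_iff _).2 ⟨j, hs, hj'⟩
      filter_upwards [ea _ i hi, hlow] with s hs hl
      exact Nat.mem_rfind.2 ⟨(Part.mem_map_iff _).2 ⟨i, hs, hi'⟩, fun {m} hm => hl m hm⟩

lemma rd_of_recIn {X Y : Seq} (h : Nat.RecursiveIn {ch X} (ch Y)) : Rd Y X := by
  obtain ⟨ψ, hψ, hs, he⟩ := use_of_recIn h
  obtain ⟨c, hc⟩ := exists_code_of_partrec hψ
  refine ⟨c, hc X Y (fun s n v hv => ?_) fun n => ?_⟩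
  · have := hs s n v hv
    rw [ch, Part.mem_some_iff] at this
    subst this
    cases Y n <;> rfl
  · obtain ⟨s, hs'⟩ := (he n _ (Part.mem_some _)).exists
    exact ⟨s, Part.dom_iff_mem.2 ⟨_, hs'⟩⟩

/-- The finite-approximation reducibility is Mathlib's Turing reducibility. -/
theorem rd_iff_turingReducible (X Y : Seq) : Rd Y X ↔ TuringReducible (ch Y) (ch X) :=
  ⟨fun h => RecursiveIn.iff_nat.2 (recIn_of_rd h),
    fun h => rd_of_recIn (RecursiveIn.iff_nat.1 h)⟩

/-- The characteristic function of a set of numbers. -/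
noncomputable def charFun (A : Set ℕ) : ℕ →. ℕ := fun n => Part.some (A.indicator 1 n)

open scoped Classical in
/-- A set of numbers as a sequence. -/
noncomputable def toSeq (A : Set ℕ) : Seq := fun n => decide (n ∈ A)

lemma toSeq_setOf (X : Seq) : toSeq {n | X n = true} = X := by
  funext n
  simp [toSeq]

lemma ch_toSeq (A : Set ℕ) : ch (toSeq A) = charFun A := by
  funext n
  by_cases h : n ∈ A <;> simp [ch, toSeq, charFun, h]

lemma rd_toSeq {A B : Set ℕ} :
    Rd (toSeq A) (toSeq B) ↔ TuringReducible (charFun A) (charFun B) := by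
  rw [rd_iff_turingReducible, ch_toSeq, ch_toSeq]

/-- Sets of numbers with Turing reducibility of their characteristic functions. -/
def TSet : Type := Set ℕ

instance : Preorder TSet where
  le A B := TuringReducible (charFun A) (charFun B)
  le_refl A := .refl _
  le_trans _ _ _ := TuringReducible.trans

/-- The Turing degrees of sets of numbers. -/
abbrev SetDegree : Type := Antisymmetrization TSet (· ≤ ·)

/-- The degree of a set. -/
def deg (A : Set ℕ) : SetDegree := toAntisymmetrization (α := TSet) (· ≤ ·) A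

lemma deg_le_deg {A B : Set ℕ} : deg A ≤ deg B ↔ TuringReducible (charFun A) (charFun B) :=
  Iff.rfl

lemma exists_deg (d : SetDegree) : ∃ A, deg A = d :=
  Quotient.exists_rep d

lemma deg_le_deg_setOf {X Y : Seq} :
    deg {n | X n = true} ≤ deg {n | Y n = true} ↔ Rd X Y := by
  rw [deg_le_deg, ← rd_toSeq, toSeq_setOf, toSeq_setOf]

/-- The image of a sequence under an automorphism of the degrees of sets. -/
noncomputable def image (e : SetDegree ≃o SetDegree) (X : Seq) : Set ℕ :=
  (exists_deg (e (deg {n | X n = true}))).choose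

lemma deg_image (e : SetDegree ≃o SetDegree) (X : Seq) :
    deg (image e X) = e (deg {n | X n = true}) :=
  (exists_deg (e (deg {n | X n = true}))).choose_spec

lemma eqv_toSeq_of_deg_eq {A B : Set ℕ} (h : deg A = deg B) : Eqv (toSeq A) (toSeq B) :=
  ⟨rd_toSeq.2 (deg_le_deg.1 h.le), rd_toSeq.2 (deg_le_deg.1 h.ge)⟩

lemma setOf_toSeq (A : Set ℕ) : ({n | toSeq A n = true} : Set ℕ) = A := by
  ext n; simp [toSeq]

/-- An automorphism of the degrees of sets, given on sequences. -/
noncomputable def autoOfOrderIso (e : SetDegree ≃o SetDegree) : Auto where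
  F X := toSeq (image e X)
  mono_iff X Y := by
    rw [rd_toSeq, ← deg_le_deg, deg_image, deg_image, e.le_iff_le]
    exact deg_le_deg_setOf
  surj Y := by
    obtain ⟨A, hA⟩ := exists_deg (e.symm (deg {n | Y n = true}))
    refine ⟨toSeq A, ?_⟩
    conv_rhs => rw [← toSeq_setOf Y]
    exact eqv_toSeq_of_deg_eq (by rw [deg_image, setOf_toSeq, hA, e.apply_symm_apply])

/-- If every representation of an automorphism moves every sequence inside its degree, then
the only automorphism of the Turing degrees of sets is the identity. -/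
theorem setDegree_rigid_of (hA : ∀ π : Auto, ∀ X, Eqv (π.F X) X)
    (e : SetDegree ≃o SetDegree) : e = OrderIso.refl _ := by
  refine OrderIso.ext (funext fun d => ?_)
  obtain ⟨A, rfl⟩ := exists_deg d
  have h : Eqv (toSeq (image e (toSeq A))) (toSeq A) := hA (autoOfOrderIso e) (toSeq A)
  have hle : deg (image e (toSeq A)) = deg A :=
    le_antisymm (deg_le_deg.2 (rd_toSeq.1 h.1)) (deg_le_deg.2 (rd_toSeq.1 h.2))
  rwa [deg_image, setOf_toSeq] at hle

end Vale.Agent.P327
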