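import Mathlib
import Vale.Agent.P327.Cone

/-!
Colours, self-correcting operations and the pigeonhole lemma.
-/

namespace Vale.Agent.P327

open Filter Set Topology
open Nat.Partrec (Code)

open Classical in
/-- The sequence computed by `c` from `X` (junk where undefined). -/
noncomputable def fn (c : Code) (X : Seq) : Seq :=
  fun n => decide (∃ s, ev c (pre X s) n = some true)

/-- Totality of `c` on `X`. -/
def Tot (c : Code) (X : Seq) : Prop := ∀ n, ∃ s v, ev c (pre X s) n = some v

lemma Comp.fn_eq {c : Code} {X Y : Seq} (h : Comp c X Y) : fn c X = Y := by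
  classical
  funext n
  obtain ⟨s, hs⟩ := h n
  cases hy : Y n
  · rw [fn, decide_eq_false_iff_not]
    rintro ⟨t, ht⟩
    have := h.sound ht
    rw [hy] at this
    simp at this
  · rw [fn, decide_eq_true_eq]
    exact ⟨s, hy ▸ hs⟩

lemma Comp.tot {c : Code} {X Y : Seq} (h : Comp c X Y) : Tot c X :=
  fun n => let ⟨s, hs⟩ := h n; ⟨s, _, hs⟩

lemma Tot.comp {c : Code} {X : Seq} (h : Tot c X) : Comp c X (fn c X) := by
  classical
  intro n
  obtain ⟨s, v, hs⟩ := h n
  refine ⟨s, ?_⟩
  rw [hs, Option.some.injEq]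
  cases v
  · symm
    rw [fn, decide_eq_false_iff_not]
    rintro ⟨t, ht⟩
    exact Bool.false_ne_true (ev_unique hs ht)
  · symm
    rw [fn, decide_eq_true_eq]
    exact ⟨s, hs⟩

lemma continuousOn_fn (c : Code) : ContinuousOn (fn c) {X | Tot c X} := by
  rw [continuousOn_pi]
  intro n X hX
  refine ContinuousWithinAt.congr_of_eventuallyEq (continuousWithinAt_const (b := fn c X n)) ?_ rfl
  obtain ⟨s, hs⟩ := hX.comp n
  filter_upwards [self_mem_nhdsWithin,
    mem_nhdsWithin_of_mem_nhds ((PiNat.isOpen_cylinder _ X s).mem_nhds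
      (PiNat.self_mem_cylinder X s))] with Y hY hYs
  rw [← pre_eq_iff.2 hYs] at hs
  exact ((hY.comp).sound hs).symm

lemma continuous_join : Continuous fun p : Seq × Seq => join p.1 p.2 :=
  continuous_pi fun i => by
    unfold join
    by_cases h : i % 2 = 0
    · simp only [h, if_true]; exact (continuous_apply _).comp continuous_fst
    · simp only [h, if_false]; exact (continuous_apply _).comp continuous_snd

lemma continuousOn_join {P : Type*} [TopologicalSpace P] {G : Set P} {A B : P → Seq}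
    (hA : ContinuousOn A G) (hB : ContinuousOn B G) : ContinuousOn (fun p => join (A p) (B p)) G :=
  fun x hx => by
    have := (continuous_join.tendsto (A x, B x)).comp ((hA x hx).prodMk_nhds (hB x hx))
    exact this

lemma gdelta_inter_preimage {P : Type*} [TopologicalSpace P] {G : Set P} {A B : P → Seq}
    (hG : IsGδ G) (hA : ContinuousOn A G) (hB : ContinuousOn B G)
    (W : ℕ → Set (Seq × Seq)) (hW : ∀ n, IsOpen (W n)) :
    IsGδ {p | p ∈ G ∧ ∀ n, (A p, B p) ∈ W n} := by
  choose O hO hOG using fun n => continuousOn_iff'.1 (hA.prodMk hB) (W n) (hW n)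
  have : {p | p ∈ G ∧ ∀ n, (A p, B p) ∈ W n} = G ∩ ⋂ n, O n := by
    ext p
    simp only [mem_inter_iff, mem_iInter, Set.mem_ofPred_eq]
    refine and_congr_right fun hp => forall_congr' fun n => ?_
    have := Set.ext_iff.1 (hOG n) p
    simpa [hp] using this
  rw [this]
  exact hG.inter (IsGδ.iInter_of_isOpen hO)

lemma gdelta_tot {P : Type*} [TopologicalSpace P] {G : Set P} {A : P → Seq} (c : Code)
    (hG : IsGδ G) (hA : ContinuousOn A G) : IsGδ {p | p ∈ G ∧ Tot c (A p)} := by
  refine gdelta_inter_preimage hG hA hA (fun n => {q | ∃ s v, ev c (pre q.1 s) n = some v})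
    fun n => ?_
  simp only [Set.ofPred_exists]
  exact isOpen_iUnion fun s => isOpen_iUnion fun v =>
    (isOpen_pre s fun l => ev c l n = some v).preimage continuous_fst

lemma gdelta_comp {P : Type*} [TopologicalSpace P] {G : Set P} {A B : P → Seq} (c : Code)
    (hG : IsGδ G) (hA : ContinuousOn A G) (hB : ContinuousOn B G) :
    IsGδ {p | p ∈ G ∧ Comp c (A p) (B p)} := by
  refine gdelta_inter_preimage hG hA hB (fun n => {q | ∃ s, ev c (pre q.1 s) n = some (q.2 n)})
    fun n => ?_
  have : {q : Seq × Seq | ∃ s, ev c (pre q.1 s) n = some (q.2 n)} =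
      ⋃ s, ⋃ v : Bool, {q | ev c (pre q.1 s) n = some v} ∩ {q | q.2 n = v} := by
    ext q; simp only [mem_iUnion, mem_inter_iff, Set.mem_ofPred_eq]
    exact ⟨fun ⟨s, h⟩ => ⟨s, _, h, rfl⟩, fun ⟨s, v, h, h'⟩ => ⟨s, h' ▸ h⟩⟩
  rw [this]
  exact isOpen_iUnion fun s => isOpen_iUnion fun v =>
    ((isOpen_pre s fun l => ev c l n = some v).preimage continuous_fst).inter
      (IsOpen.preimage (f := fun q : Seq × Seq => q.2 n) ((continuous_apply n).comp continuous_snd)
        (isOpen_discrete ({v} : Set Bool)))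

@[simp] lemma join_even (X Y : Seq) (q : ℕ) : join X Y (2 * q) = X q := by simp [join]

@[simp] lemma join_odd (X Y : Seq) (q : ℕ) : join X Y (2 * q + 1) = Y q := by
  simp [join, show (2 * q + 1) / 2 = q by omega]

/-- A colour: a pair of codes. -/
abbrev Col := Code × Code

/-- The representative selected by a colour. -/
noncomputable def cf (b : Seq) (κ : Col) (x : Seq) : Seq := fn κ.1 (join x b)

/-- The colour `κ` is correct at `x`. -/
def Corr (π : Auto) (b : Seq) (κ : Col) (x : Seq) : Prop :=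
  Comp κ.1 (join x b) (cf b κ x) ∧ Eqv (cf b κ x) (π.F x) ∧ Comp κ.2 (join (cf b κ x) b) x

lemma exists_corr (π : Auto) {b : Seq} (hb : ∀ x, Eqv (join (π.F x) b) (join x b)) (x : Seq) :
    ∃ κ, Corr π b κ x := by
  obtain ⟨e, he⟩ : Rd (π.F x) (join x b) := (rd_join_left _ _).trans (hb x).1
  obtain ⟨d, hd⟩ : Rd x (join (π.F x) b) := (rd_join_left _ _).trans (hb x).2
  refine ⟨(e, d), ?_⟩
  simp only [Corr, cf, he.fn_eq]
  exact ⟨he, Eqv.refl _, hd⟩

/-- An involutive computable operation of one set on another. -/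
structure Op where
  T : Seq → Seq → Seq
  cont : Continuous fun p : Seq × Seq => T p.1 p.2
  inv : ∀ x y, T (T x y) y = x
  rd : ∀ x y, Rd (T x y) (join x y)

/-- The identities recorded by a pigeonholed colour of an operation. -/
def Edge (b : Seq) (o : Op) (κ κg κh : Col) (i j : Code) : Set (Seq × Seq) :=
  {p | ((((Tot κ.1 (join p.1 b) ∧ Tot κg.1 (join p.2 b)) ∧ Tot κh.1 (join (o.T p.1 p.2) b)) ∧
      Comp κh.2 (join (cf b κh (o.T p.1 p.2)) b) (o.T p.1 p.2)) ∧
      Comp i (join (cf b κ p.1) (cf b κg p.2)) (cf b κh (o.T p.1 p.2))) ∧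
      Comp j (join (cf b κh (o.T p.1 p.2)) (cf b κg p.2)) (cf b κ p.1)}

lemma isGδ_edge (b : Seq) (o : Op) (κ κg κh : Col) (i j : Code) :
    IsGδ (Edge b o κ κg κh i j) := by
  have hj : ∀ (A : Seq × Seq → Seq), Continuous A → Continuous fun p => join (A p) b :=
    fun A hA => continuous_join.comp (hA.prodMk continuous_const)
  let G3 : Set (Seq × Seq) := {p | (Tot κ.1 (join p.1 b) ∧ Tot κg.1 (join p.2 b)) ∧
    Tot κh.1 (join (o.T p.1 p.2) b)}
  have g1 : IsGδ {p : Seq × Seq | p ∈ (univ : Set (Seq × Seq)) ∧ Tot κ.1 (join p.1 b)} :=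
    gdelta_tot κ.1 IsGδ.univ (hj (fun p => p.1) continuous_fst).continuousOn
  have g2 := gdelta_tot κg.1 g1 (hj (fun p => p.2) continuous_snd).continuousOn
  have g3 : IsGδ G3 := by
    have := gdelta_tot κh.1 g2 (hj (fun p => o.T p.1 p.2) o.cont).continuousOn
    convert this using 1
    exact Set.ext fun p => ⟨fun h => ⟨⟨⟨trivial, h.1.1⟩, h.1.2⟩, h.2⟩,
      fun h => ⟨⟨h.1.1.2, h.1.2⟩, h.2⟩⟩
  have hF : ContinuousOn (fun p : Seq × Seq => cf b κ p.1) G3 :=
    (continuousOn_fn κ.1).comp (hj (fun p => p.1) continuous_fst).continuousOn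
      fun p hp => hp.1.1
  have hG : ContinuousOn (fun p : Seq × Seq => cf b κg p.2) G3 :=
    (continuousOn_fn κg.1).comp (hj (fun p => p.2) continuous_snd).continuousOn
      fun p hp => hp.1.2
  have hH : ContinuousOn (fun p : Seq × Seq => cf b κh (o.T p.1 p.2)) G3 :=
    (continuousOn_fn κh.1).comp (hj (fun p => o.T p.1 p.2) o.cont).continuousOn
      fun p hp => hp.2
  have hC : ContinuousOn (fun _ : Seq × Seq => b) G3 := fun _ _ => continuousWithinAt_const
  have hA4 : ContinuousOn (fun p : Seq × Seq => join (cf b κh (o.T p.1 p.2)) b) G3 :=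
    continuousOn_join hH hC
  have hB4 : ContinuousOn (fun p : Seq × Seq => o.T p.1 p.2) G3 := o.cont.continuousOn
  have g4 := gdelta_comp κh.2 g3 hA4 hB4
  let G4 : Set (Seq × Seq) :=
    {p | p ∈ G3 ∧ Comp κh.2 (join (cf b κh (o.T p.1 p.2)) b) (o.T p.1 p.2)}
  have hA5 : ContinuousOn (fun p : Seq × Seq => join (cf b κ p.1) (cf b κg p.2)) G4 :=
    (continuousOn_join hF hG).mono fun p hp => hp.1
  have hB5 : ContinuousOn (fun p : Seq × Seq => cf b κh (o.T p.1 p.2)) G4 :=
    hH.mono fun p hp => hp.1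
  have g5 := gdelta_comp i (G := G4) g4 hA5 hB5
  let G5 : Set (Seq × Seq) :=
    {p | p ∈ G4 ∧ Comp i (join (cf b κ p.1) (cf b κg p.2)) (cf b κh (o.T p.1 p.2))}
  have hA6 : ContinuousOn (fun p : Seq × Seq => join (cf b κh (o.T p.1 p.2)) (cf b κg p.2)) G5 :=
    (continuousOn_join hH hG).mono fun p hp => hp.1.1
  have hB6 : ContinuousOn (fun p : Seq × Seq => cf b κ p.1) G5 :=
    hF.mono fun p hp => hp.1.1
  have g6 := gdelta_comp j (G := G5) g5 hA6 hB6
  have heq : Edge b o κ κg κh i j =
      {p | p ∈ G5 ∧ Comp j (join (cf b κh (o.T p.1 p.2)) (cf b κg p.2)) (cf b κ p.1)} := rfl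
  rw [heq]
  exact g6

lemma not_isMeagre_of_isOpen {X : Type*} [TopologicalSpace X] [BaireSpace X] {U : Set X}
    (hU : IsOpen U) (hne : U.Nonempty) : ¬ IsMeagre U := fun hm => by
  obtain ⟨x, hx, hxc⟩ := (dense_of_mem_residual hm).inter_open_nonempty U hU hne
  exact hxc hx

lemma ne_univ {X : Type*} [TopologicalSpace X] [BaireSpace X] (U : Set X) : NE univ U :=
  fun V hV _ hne => by rw [univ_inter]; exact not_isMeagre_of_isOpen hV hne

lemma Op.exists_edge (o : Op) (π : Auto) {b : Seq}
    (hb : ∀ x, Eqv (join (π.F x) b) (join x b)) {κ : Col} {A U : Set Seq}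
    (hA : ∀ x ∈ A, Corr π b κ x) (hU : IsOpen U) (hne : U.Nonempty) (hNE : NE A U) :
    ∃ (U' q : Set Seq) (κg κh : Col) (i j : Code), IsOpen U' ∧ U' ⊆ U ∧ U'.Nonempty ∧
      IsOpen q ∧ q.Nonempty ∧ IsMeagre ((U' ×ˢ q) \ Edge b o κ κg κh i j) ∧
      NE {y | Corr π b κg y} q := by
  have h2 := hNE.prod (S := fun _ => (univ : Set Seq)) (V := univ) fun _ _ => ne_univ _
  obtain ⟨⟨κg, κh, i, j⟩, V, hV, hVU, hVne, hNE'⟩ := h2.pigeon
    (B := fun (t : Col × Col × Code × Code) => {p : Seq × Seq |
      Corr π b t.1 p.2 ∧ Corr π b t.2.1 (o.T p.1 p.2) ∧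
      Comp t.2.2.1 (join (cf b κ p.1) (cf b t.1 p.2)) (cf b t.2.1 (o.T p.1 p.2)) ∧
      Comp t.2.2.2 (join (cf b t.2.1 (o.T p.1 p.2)) (cf b t.1 p.2)) (cf b κ p.1)})
    (hU.prod isOpen_univ) (hne.prod univ_nonempty) (by
      rintro ⟨x, y⟩ ⟨⟨hx, -⟩, -⟩
      obtain ⟨κg, hg⟩ := exists_corr π hb y
      obtain ⟨κh, hh⟩ := exists_corr π hb (o.T x y)
      have hf := hA x hx
      have h1 : Rd (cf b κh (o.T x y)) (join (cf b κ x) (cf b κg y)) :=
        hh.2.1.1.trans (((π.mono_iff _ _).2 (o.rd x y)).trans ((π.map_join x y).1.trans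
          ((hf.2.1.2.trans (rd_join_left _ _)).join (hg.2.1.2.trans (rd_join_right _ _)))))
      have hx' : Rd x (join (o.T x y) y) := by
        have := o.rd (o.T x y) y; rwa [o.inv] at this
      have h2 : Rd (cf b κ x) (join (cf b κh (o.T x y)) (cf b κg y)) :=
        hf.2.1.1.trans (((π.mono_iff _ _).2 hx').trans ((π.map_join _ y).1.trans
          ((hh.2.1.2.trans (rd_join_left _ _)).join (hg.2.1.2.trans (rd_join_right _ _)))))
      obtain ⟨i, hi⟩ := h1
      obtain ⟨j, hj⟩ := h2
      exact mem_iUnion.2 ⟨(κg, κh, i, j), hg, hh, hi, hj⟩)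
  obtain ⟨⟨x0, y0⟩, hp⟩ := hVne
  obtain ⟨U', q, hU', hq, hx0, hy0, hsub⟩ := isOpen_prod_iff.1 hV x0 y0 hp
  refine ⟨U', q, κg, κh, i, j, hU', fun x hx => (hVU (hsub (mk_mem_prod hx hy0))).1, ⟨x0, hx0⟩,
    hq, ⟨y0, hy0⟩, ?_, ?_⟩
  · refine isMeagre_diff_of_gdelta (isGδ_edge b o κ κg κh i j) (hU'.prod hq)
      (hNE'.subset hsub) ?_
    rintro ⟨x, y⟩ ⟨⟨⟨hx, -⟩, hg, hh, hi, hj⟩, -⟩
    exact ⟨⟨⟨⟨⟨(hA x hx).1.tot, hg.1.tot⟩, hh.1.tot⟩, hh.2.2⟩, hi⟩, hj⟩
  · exact NE.snd hU' ⟨x0, hx0⟩ (hNE'.subset hsub) fun p hp => hp.2.1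

/-- The composite of two applications of an operation. -/
def Op.ratio (o : Op) (y₁ y₂ x : Seq) : Seq := o.T (o.T x y₁) y₂

lemma Op.ratio_ratio (o : Op) (y₁ y₂ x : Seq) : o.ratio y₂ y₁ (o.ratio y₁ y₂ x) = x := by
  simp [Op.ratio, o.inv]

/-- One step of the self-correction on finite approximations. -/
def stepL (i j : Code) (st a a' : List Bool) : List Bool :=
  out j (joinL (out i (joinL st a)) a')

lemma Ap.step {b : Seq} {o : Op} {κ κg κh : Col} {i j : Code} {x y₁ y₂ : Seq}
    (h₁ : (x, y₁) ∈ Edge b o κ κg κh i j)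
    (h₂ : (o.ratio y₁ y₂ x, y₂) ∈ Edge b o κ κg κh i j) {P Q Q' : ℕ → List Bool}
    (hP : Ap P (cf b κ x)) (hQ : Ap Q (cf b κg y₁)) (hQ' : Ap Q' (cf b κg y₂)) :
    Ap (fun s => stepL i j (P s) (Q s) (Q' s)) (cf b κ (o.ratio y₁ y₂ x)) := by
  have h3 := h₂.2
  simp only [Op.ratio, o.inv] at h3
  exact ((((hP.join hQ).out h₁.1.2).join hQ').out h3)

/-! ### The three operations -/

/-- The position of `W(l, i)`. -/
def wpos (l i : ℕ) : ℕ := 2 * Nat.pair l i + 1

/-- The two matchings of `ℕ`. -/
def mu (v : Bool) (i : ℕ) : ℕ := if (i + (if v = true then 1 else 0)) % 2 = 0 then i + 1 else i - 1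

lemma mu_mu (v : Bool) (i : ℕ) : mu v (mu v i) = i := by
  cases v <;> simp only [mu] <;> split_ifs <;> simp_all <;> omega

/-- The lane of a position. -/
def laneOf (p : ℕ) : ℕ := (p / 2).unpair.1

/-- The index in its lane of a position. -/
def idxOf (p : ℕ) : ℕ := (p / 2).unpair.2

lemma laneOf_wpos (l i : ℕ) : laneOf (wpos l i) = l := by
  simp [laneOf, wpos, show (2 * Nat.pair l i + 1) / 2 = Nat.pair l i by omega]

lemma idxOf_wpos (l i : ℕ) : idxOf (wpos l i) = i := by
  simp [idxOf, wpos, show (2 * Nat.pair l i + 1) / 2 = Nat.pair l i by omega]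

lemma wpos_mod (l i : ℕ) : wpos l i % 2 = 1 := by simp [wpos, Nat.add_mod]

lemma wpos_of_odd {p : ℕ} (hp : p % 2 = 1) : wpos (laneOf p) (idxOf p) = p := by
  simp [wpos, laneOf, idxOf]; omega

lemma laneOf_le (p : ℕ) : laneOf p ≤ p :=
  (Nat.unpair_left_le _).trans (Nat.div_le_self _ _)

/-- Add `Z` to the lanes selected by `y`. -/
def addZ (x y : Seq) : Seq :=
  fun p => if p % 2 = 1 then x p ^^ (y (laneOf p) && x (2 * idxOf p)) else x p

/-- Permute the lanes by the matchings selected by `y`. -/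
def permLanes (x y : Seq) : Seq :=
  fun p => if p % 2 = 1 then x (wpos (laneOf p) (mu (y (laneOf p)) (idxOf p))) else x p

lemma primrec_laneOf : Primrec laneOf :=
  Primrec.fst.comp (Primrec.unpair.comp (Primrec.nat_div.comp Primrec.id (Primrec.const 2)))

lemma primrec_idxOf : Primrec idxOf :=
  Primrec.snd.comp (Primrec.unpair.comp (Primrec.nat_div.comp Primrec.id (Primrec.const 2)))

lemma continuous_bool₃ (f : Bool → Bool → Bool → Bool) {P : Type*} [TopologicalSpace P]
    {a b c : P → Bool} (ha : Continuous a) (hb : Continuous b) (hc : Continuous c) :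
    Continuous fun q => f (a q) (b q) (c q) :=
  (continuous_of_discreteTopology (f := fun t : Bool × Bool × Bool => f t.1 t.2.1 t.2.2)).comp
    (ha.prodMk (hb.prodMk hc))

/-- The operation `addZ`. -/
def opM : Op where
  T := addZ
  cont := continuous_pi fun p => by
    by_cases hp : p % 2 = 1
    · simp only [addZ, hp, if_true]
      exact continuous_bool₃ (fun a v z => a ^^ (v && z))
        ((continuous_apply p).comp continuous_fst)
        ((continuous_apply (laneOf p)).comp continuous_snd)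
        ((continuous_apply (2 * idxOf p)).comp continuous_fst)
    · simp only [addZ, hp, if_false]; exact (continuous_apply p).comp continuous_fst
  inv x y := by
    funext p
    simp only [addZ]
    split_ifs with hp h2
    · omega
    · cases x p <;> cases (y (laneOf p) && x (2 * idxOf p)) <;> rfl
    · rfl
  rd x y := by
    obtain ⟨c, hc⟩ := exists_code_of_search (g := fun σ p =>
      (σ[2 * p]?).bind fun a => (σ[2 * laneOf p + 1]?).bind fun v =>
        (σ[2 * (2 * idxOf p)]?).map fun z => if p % 2 = 1 then a ^^ (v && z) else a)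
      (Primrec.option_bind (Primrec.list_getElem?.comp Primrec.fst
        (Primrec.nat_mul.comp (Primrec.const 2) Primrec.snd))
        (Primrec.option_bind (Primrec.list_getElem?.comp (Primrec.fst.comp Primrec.fst)
          (Primrec.succ.comp (Primrec.nat_mul.comp (Primrec.const 2)
            (primrec_laneOf.comp (Primrec.snd.comp Primrec.fst)))))
          (Primrec.option_map (Primrec.list_getElem?.comp
            (Primrec.fst.comp (Primrec.fst.comp Primrec.fst))
            (Primrec.nat_mul.comp (Primrec.const 2) (Primrec.nat_mul.comp (Primrec.const 2)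
              (primrec_idxOf.comp (Primrec.snd.comp (Primrec.fst.comp Primrec.fst))))))
            (Primrec.ite (Primrec.eq.comp (Primrec.nat_mod.comp
                (Primrec.snd.comp (Primrec.fst.comp (Primrec.fst.comp Primrec.fst)))
                (Primrec.const 2)) (Primrec.const 1))
              ((Primrec.dom_bool₂ xor).comp (Primrec.snd.comp (Primrec.fst.comp Primrec.fst))
                (Primrec.and.comp (Primrec.snd.comp Primrec.fst) Primrec.snd))
              (Primrec.snd.comp (Primrec.fst.comp Primrec.fst))).to₂).to₂).to₂).to_comp.to₂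
    refine ⟨c, hc _ _ (fun s p v hv => ?_)
      (fun p => ⟨2 * p + 2 * laneOf p + 4 * idxOf p + 3, ?_⟩)⟩
    · simp only [pre_getElem?, Option.bind_eq_some_iff, Option.map_eq_some_iff,
        Option.ite_none_right_eq_some, Option.some.injEq] at hv
      obtain ⟨a, ⟨-, rfl⟩, w, ⟨-, rfl⟩, z, ⟨-, rfl⟩, rfl⟩ := hv
      simp [addZ]
    · simp [pre_getElem?]
      omega

/-- The operation `permLanes`. -/
def opP : Op where
  T := permLanes
  cont := continuous_pi fun p => by
    by_cases hp : p % 2 = 1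
    · simp only [permLanes, hp, if_true]
      have : (fun q : Seq × Seq => q.1 (wpos (laneOf p) (mu (q.2 (laneOf p)) (idxOf p)))) =
          fun q => if q.2 (laneOf p) = true then q.1 (wpos (laneOf p) (mu true (idxOf p)))
            else q.1 (wpos (laneOf p) (mu false (idxOf p))) := by
        funext q; cases q.2 (laneOf p) <;> simp
      rw [this]
      exact continuous_bool₃ (fun v a c => if v = true then a else c)
        ((continuous_apply (laneOf p)).comp continuous_snd)
        ((continuous_apply _).comp continuous_fst) ((continuous_apply _).comp continuous_fst)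
    · simp only [permLanes, hp, if_false]; exact (continuous_apply p).comp continuous_fst
  inv x y := by
    funext p
    by_cases hp : p % 2 = 1
    · simp [permLanes, hp, wpos_mod, laneOf_wpos, idxOf_wpos, mu_mu, wpos_of_odd hp]
    · simp [permLanes, hp]
  rd x y := by
    obtain ⟨c, hc⟩ := exists_code_of_search (g := fun σ p =>
      (σ[2 * laneOf p + 1]?).bind fun v =>
        σ[2 * (if p % 2 = 1 then wpos (laneOf p) (mu v (idxOf p)) else p)]?)
      (by
        have hmu : Primrec₂ mu :=
          Primrec.ite (Primrec.eq.comp (Primrec.nat_mod.comp (Primrec.nat_add.comp Primrec.snd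
            ((Primrec.dom_bool fun v => if v = true then (1 : ℕ) else 0).comp Primrec.fst))
            (Primrec.const 2)) (Primrec.const 0))
            (Primrec.succ.comp Primrec.snd) (Primrec.nat_sub.comp Primrec.snd (Primrec.const 1))
        exact (Primrec.option_bind (Primrec.list_getElem?.comp Primrec.fst
          (Primrec.succ.comp (Primrec.nat_mul.comp (Primrec.const 2)
            (primrec_laneOf.comp Primrec.snd))))
          (Primrec.list_getElem?.comp (Primrec.fst.comp Primrec.fst)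
            (Primrec.nat_mul.comp (Primrec.const 2) (Primrec.ite
              (Primrec.eq.comp (Primrec.nat_mod.comp (Primrec.snd.comp Primrec.fst)
                (Primrec.const 2)) (Primrec.const 1))
              (Primrec.succ.comp (Primrec.nat_mul.comp (Primrec.const 2)
                (Primrec₂.natPair.comp (primrec_laneOf.comp (Primrec.snd.comp Primrec.fst))
                  (hmu.comp Primrec.snd (primrec_idxOf.comp (Primrec.snd.comp Primrec.fst))))))
              (Primrec.snd.comp Primrec.fst)))).to₂).to_comp.to₂)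
    refine ⟨c, hc _ _ (fun s p v hv => ?_) (fun p => ?_)⟩
    · simp only [pre_getElem?, Option.bind_eq_some_iff,
        Option.ite_none_right_eq_some, Option.some.injEq] at hv
      obtain ⟨w, ⟨-, rfl⟩, -, rfl⟩ := hv
      simp [permLanes]
      split_ifs <;> exact (join_even _ _ _).symm ▸ rfl
    · refine ⟨2 * laneOf p + 2 * wpos (laneOf p) (mu (y (laneOf p)) (idxOf p)) + 2 * p + 3, ?_⟩
      simp only [pre_getElem?]
      rw [if_pos (by omega), Option.bind_some, if_pos]
      · simp
      · rw [join_odd]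
        split_ifs <;> omega

/-- The operation of exclusive or. -/
def opC : Op where
  T x y := fun p => x p ^^ y p
  cont := continuous_pi fun p => continuous_bool₃ (fun a b _ => a ^^ b)
    ((continuous_apply p).comp continuous_fst) ((continuous_apply p).comp continuous_snd)
    ((continuous_apply p).comp continuous_snd)
  inv x y := by funext p; show ((x p ^^ y p) ^^ y p) = x p; cases x p <;> cases y p <;> rfl
  rd x y := rd_xor (rd_join_left x y) (rd_join_right x y)

lemma opM_ratio_odd (y₁ y₂ x : Seq) (l i : ℕ) :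
    opM.ratio y₁ y₂ x (wpos l i) = (x (wpos l i) ^^ ((y₁ l ^^ y₂ l) && x (2 * i))) := by
  simp [Op.ratio, opM, addZ, wpos_mod, laneOf_wpos, idxOf_wpos]
  cases x (wpos l i) <;> cases y₁ l <;> cases y₂ l <;> cases x (2 * i) <;> rfl

lemma opP_ratio_odd (y₁ y₂ x : Seq) (l i : ℕ) :
    opP.ratio y₁ y₂ x (wpos l i) = x (wpos l (mu (y₁ l) (mu (y₂ l) i))) := by
  simp [Op.ratio, opP, permLanes, wpos_mod, laneOf_wpos, idxOf_wpos]

lemma opM_ratio_eq {y₁ y₂ : Seq} (x : Seq) {p : ℕ} (h : y₁ (laneOf p) = y₂ (laneOf p)) :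
    opM.ratio y₁ y₂ x p = x p := by
  by_cases hp : p % 2 = 1
  · rw [← wpos_of_odd hp, opM_ratio_odd, h]; simp
  · simp [Op.ratio, opM, addZ, hp]

lemma opP_ratio_eq {y₁ y₂ : Seq} (x : Seq) {p : ℕ} (h : y₁ (laneOf p) = y₂ (laneOf p)) :
    opP.ratio y₁ y₂ x p = x p := by
  by_cases hp : p % 2 = 1
  · rw [← wpos_of_odd hp, opP_ratio_odd, h, mu_mu]
  · simp [Op.ratio, opP, permLanes, hp]

lemma iterate_forward (k : ℕ) : (fun i => mu false (mu true i))^[k + 1] 0 = 2 * k + 1 := by
  induction k with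
  | zero => simp [mu]
  | succ k ih =>
    rw [Function.iterate_succ_apply', ih]
    simp [mu, Nat.add_mod]
    omega

lemma iterate_backward (k : ℕ) : (fun i => mu true (mu false i))^[k] 0 = 2 * k := by
  induction k with
  | zero => simp
  | succ k ih =>
    rw [Function.iterate_succ_apply', ih]
    simp [mu, Nat.add_mod]
    omega

end Vale.Agent.P327
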