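import Mathlib
import Vale.Agent.P327.Ops

/-!
The automorphism group of the Turing degrees is trivial.
-/

namespace Vale.Agent.P327

open Filter Set Topology
open Nat.Partrec (Code)

/-- The even part of a sequence. -/
def evens (x : Seq) : Seq := fun i => x (2 * i)

lemma IsPre.take {l : List Bool} {X : Seq} (h : IsPre l X) (K : ℕ) : IsPre (l.take K) X := by
  refine isPre_of_getElem? fun i hi => ?_
  simp only [List.length_take] at hi
  rw [List.getElem?_take, if_pos (by omega)]
  exact h.getElem? (by omega)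

lemma primrec_filterMap_const {α β γ : Type*} [Primcodable α] [Primcodable γ] (L : List β)
    (f : α → β → Option γ) (hf : ∀ q, Primrec fun a => f a q) :
    Primrec fun a => L.filterMap (f a) := by
  induction L with
  | nil => exact Primrec.const []
  | cons q L ih =>
    refine (Primrec.list_append.comp
      (Primrec.option_casesOn (hf q) (Primrec.const [])
        ((Primrec.list_cons.comp Primrec.snd (Primrec.const [])).to₂)) ih).of_eq fun a => ?_
    rw [List.filterMap_cons]
    cases f a q <;> simp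

lemma pre_join_congr {u v b : Seq} {M s : ℕ} (hs : s ≤ M) (h : pre u M = pre v M) :
    pre (join u b) s = pre (join v b) s := by
  rw [pre_eq_iff] at h ⊢
  intro i hi
  simp only [join]
  split_ifs
  · exact h _ (by omega)
  · rfl

/-- Finitely much information decodes a fixed bit near a good point. -/
lemma exists_use {b u₀ : Seq} {κh : Col} (h₁ : Tot κh.1 (join u₀ b))
    (h₂ : Comp κh.2 (join (cf b κh u₀) b) u₀) (N L0 : ℕ) :
    ∃ M K : ℕ, L0 ≤ M ∧ N < M ∧ ∀ u, Tot κh.1 (join u b) → pre u M = pre u₀ M →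
      ∀ l, IsPre l (cf b κh u) → K ≤ l.length →
        ev κh.2 (joinL (l.take K) (pre b K)) N = some (u₀ N) := by
  obtain ⟨K, hK⟩ := h₂ N
  obtain ⟨s, hs⟩ :=
    ((Set.finite_Iio K).eventually_all.2 fun i _ => (h₁.comp).eventually i).exists
  refine ⟨max (max s (N + 1)) L0, K, le_max_right _ _, by omega, fun u hu hM l hl hlK => ?_⟩
  have hp := pre_join_congr (b := b) (show s ≤ max (max s (N + 1)) L0 by omega) hM
  have hpre : pre (cf b κh u) K = pre (cf b κh u₀) K := pre_eq_iff.2 fun i hi => by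
    have := hs i hi
    rw [← hp] at this
    exact (hu.comp.sound this).symm
  have hlt : l.take K = pre (cf b κh u₀) K := by
    rw [← hpre, hl, pre_take _ hlK]
  have hj := (isPre_pre (cf b κh u₀) K).join (isPre_pre b K)
  rw [hlt, hj]
  exact ev_mono (by simp [joinL]; omega) hK

/-- The decoder of one bit from finitely many translates. -/
def bitDec (i dh : Code) (bK : List Bool) (K N : ℕ) (L : List (Code × Bool))
    (σ st : List Bool) : Option Bool :=
  (L.filterMap fun q =>
    (ev dh (joinL ((out i (joinL st (out q.1 σ))).take K) bK) N).map fun v => v ^^ q.2).head?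

lemma primrec_bitDec (i dh : Code) (bK : List Bool) (K N : ℕ) (L : List (Code × Bool)) :
    Primrec₂ (bitDec i dh bK K N L) := by
  unfold bitDec
  refine Primrec.list_head?.comp (primrec_filterMap_const L
    (fun (a : List Bool × List Bool) q =>
      (ev dh (joinL ((out i (joinL a.2 (out q.1 a.1))).take K) bK) N).map fun v => v ^^ q.2)
    fun q => ?_)
  refine Primrec.option_map (primrec_ev.comp (Primrec.pair (Primrec.pair (Primrec.const dh)
    (primrec_joinL.comp (Primrec.list_take.comp (Primrec.const K) ((primrec_out i).comp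
      (primrec_joinL.comp Primrec.snd ((primrec_out q.1).comp Primrec.fst))))
      (Primrec.const bK))) (Primrec.const N))) ?_
  exact ((Primrec.dom_bool₂ xor).comp Primrec.snd (Primrec.const q.2)).to₂

/-- Iterated self-correction on finite approximations. -/
def iterL (i j : Code) (k : ℕ) (st a a' : List Bool) : List Bool :=
  Nat.rec st (fun _ r => stepL i j r a a') k

lemma primrec_stepL (i j : Code) {α : Type*} [Primcodable α] {f g g' : α → List Bool}
    (hf : Primrec f) (hg : Primrec g) (hg' : Primrec g') :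
    Primrec fun q => stepL i j (f q) (g q) (g' q) :=
  (primrec_out j).comp (primrec_joinL.comp ((primrec_out i).comp (primrec_joinL.comp hf hg)) hg')

lemma primrec_iterL (i j : Code) {α : Type*} [Primcodable α] {n : α → ℕ}
    {f g g' : α → List Bool} (hn : Primrec n) (hf : Primrec f) (hg : Primrec g)
    (hg' : Primrec g') : Primrec fun q => iterL i j (n q) (f q) (g q) (g' q) :=
  Primrec.nat_rec' (h := fun q (r : ℕ × List Bool) => stepL i j r.2 (g q) (g' q)) hn hf
    (primrec_stepL i j (Primrec.snd.comp Primrec.snd) (hg.comp Primrec.fst)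
      (hg'.comp Primrec.fst)).to₂

lemma Ap.iterate {b : Seq} {o : Op} {κ κg κh : Col} {i j : Code} {x y₁ y₂ : Seq}
    (h₁ : ∀ k, ((o.ratio y₁ y₂)^[k] x, y₁) ∈ Edge b o κ κg κh i j)
    (h₂ : ∀ k, ((o.ratio y₁ y₂)^[k] x, y₂) ∈ Edge b o κ κg κh i j) {P Q Q' : ℕ → List Bool}
    (hP : Ap P (cf b κ x)) (hQ : Ap Q (cf b κg y₁)) (hQ' : Ap Q' (cf b κg y₂)) (k : ℕ) :
    Ap (fun s => iterL i j k (P s) (Q s) (Q' s)) (cf b κ ((o.ratio y₁ y₂)^[k] x)) := by
  induction k with
  | zero => exact hP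
  | succ k ih =>
    have h := h₂ (k + 1)
    rw [Function.iterate_succ_apply'] at h ⊢
    exact Ap.step (h₁ k) h ih hQ hQ'

lemma opP_iterate (y₁ y₂ x : Seq) (l k i : ℕ) :
    (opP.ratio y₁ y₂)^[k] x (wpos l i) =
      x (wpos l ((fun i => mu (y₁ l) (mu (y₂ l) i))^[k] i)) := by
  induction k generalizing i with
  | zero => rfl
  | succ k ih => rw [Function.iterate_succ_apply', opP_ratio_odd, ih, Function.iterate_succ_apply]

lemma ratio_cyl {o : Op} (ho : ∀ (y₁ y₂ x : Seq) (p : ℕ), y₁ (laneOf p) = y₂ (laneOf p) →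
    o.ratio y₁ y₂ x p = x p) {a y₁ y₂ x : Seq} {L0 : ℕ} (h : ∀ i < L0, y₁ i = y₂ i)
    (hx : x ∈ PiNat.cylinder a L0) : o.ratio y₁ y₂ x ∈ PiNat.cylinder a L0 := fun p hp => by
  rw [ho _ _ _ _ (h _ (lt_of_le_of_lt (laneOf_le p) hp))]
  exact hx p hp

lemma isOpenMap_iterate {X : Type*} [TopologicalSpace X] {f : X → X} (hf : IsOpenMap f) :
    ∀ n, IsOpenMap f^[n]
  | 0 => IsOpenMap.id
  | n + 1 => by rw [Function.iterate_succ']; exact hf.comp (isOpenMap_iterate hf n)

/-- The ratio of an operation with two selected helpers, as a map of the product space. -/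
def ratioMap (o : Op) {k : ℕ} (a c : Fin k) (q : Seq × (Fin k → Seq)) : Seq × (Fin k → Seq) :=
  (o.ratio (q.2 a) (q.2 c) q.1, q.2)

lemma continuous_ratioMap (o : Op) {k : ℕ} (a c : Fin k) : Continuous (ratioMap o a c) :=
  (o.cont.comp ((o.cont.comp (continuous_fst.prodMk ((continuous_apply a).comp
    continuous_snd))).prodMk ((continuous_apply c).comp continuous_snd))).prodMk continuous_snd

lemma isOpenMap_ratioMap (o : Op) {k : ℕ} (a c : Fin k) : IsOpenMap (ratioMap o a c) := by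
  let e : Seq × (Fin k → Seq) ≃ₜ Seq × (Fin k → Seq) :=
    { toFun := ratioMap o a c
      invFun := ratioMap o c a
      left_inv := fun q => by simp [ratioMap, o.ratio_ratio]
      right_inv := fun q => by simp [ratioMap, o.ratio_ratio]
      continuous_toFun := continuous_ratioMap o a c
      continuous_invFun := continuous_ratioMap o c a }
  exact e.isOpenMap

lemma ratioMap_iterate (o : Op) {k : ℕ} (a c : Fin k) (n : ℕ) (q : Seq × (Fin k → Seq)) :
    (ratioMap o a c)^[n] q = ((o.ratio (q.2 a) (q.2 c))^[n] q.1, q.2) := by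
  induction n with
  | zero => rfl
  | succ n ih => rw [Function.iterate_succ_apply', ih, Function.iterate_succ_apply']; rfl

lemma isMeagre_pullback {k : ℕ} {φ : Seq × (Fin k → Seq) → Seq × (Fin k → Seq)}
    (hc : Continuous φ) (ho : IsOpenMap φ) (c : Fin k) {D : Set (Seq × Seq)} (hD : IsMeagre D) :
    IsMeagre {q | ((φ q).1, (φ q).2 c) ∈ D} :=
  hD.preimage_of_isOpenMap
    (f := fun q => ((φ q).1, (φ q).2 c))
    ((continuous_fst.comp hc).prodMk ((continuous_apply c).comp (continuous_snd.comp hc)))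
    ((IsOpenMap.id.prodMap (isOpenMap_eval c)).comp ho)

lemma NE.exists_mem_not {X : Type*} [TopologicalSpace X] {A U M : Set X} (h : NE A U)
    (hU : IsOpen U) (hne : U.Nonempty) (hM : IsMeagre M) : ∃ x ∈ A ∩ U, x ∉ M := by
  obtain ⟨x, ⟨hxA, hxM⟩, hxU⟩ := (h.diff hM).nonempty hU hne
  exact ⟨x, ⟨hxA, hxU⟩, hxM⟩

lemma cylinder_anti' {a : Seq} {m n : ℕ} (h : m ≤ n) :
    PiNat.cylinder a n ⊆ PiNat.cylinder a m := PiNat.cylinder_anti a h

/-- The main local step: near a monochromatic set, the even part is computed by the degree. -/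
lemma exists_meagre_local (π : Auto) {b : Seq} (hb : ∀ x, Eqv (join (π.F x) b) (join x b))
    {κ : Col} {A U : Set Seq} (hA : ∀ x ∈ A, Corr π b κ x) (hU : IsOpen U) (hne : U.Nonempty)
    (hNE : NE A U) :
    ∃ U' M₀ : Set Seq, IsOpen U' ∧ U' ⊆ U ∧ U'.Nonempty ∧ IsMeagre M₀ ∧
      ∀ x ∈ A, x ∈ U' → x ∉ M₀ → Rd (π.inv (evens x)) x := by
  obtain ⟨U1, qM, gM, hM', iM, jM, hU1, hU1U, hU1ne, hqM, ⟨aM, haM⟩, hEM, hBM⟩ :=
    opM.exists_edge π hb hA hU hne hNE
  obtain ⟨U2, qP, gP, hP', iP, jP, hU2, hU2U, hU2ne, hqP, ⟨aP, haP⟩, hEP, hBP⟩ :=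
    opP.exists_edge π hb hA hU1 hU1ne (hNE.subset hU1U)
  obtain ⟨U3, qC, gC, hC', iC, jC, hU3, hU3U, ⟨a3, ha3⟩, hqC, ⟨aC, haC⟩, hEC, hBC⟩ :=
    opC.exists_edge π hb hA hU2 hU2ne (hNE.subset (hU2U.trans hU1U))
  obtain ⟨n1, hn1⟩ := exists_cyl_subset hqM haM
  obtain ⟨n2, hn2⟩ := exists_cyl_subset hqP haP
  obtain ⟨n3, hn3⟩ := exists_cyl_subset hqC haC
  obtain ⟨n4, hn4⟩ := exists_cyl_subset hU3 ha3
  set L0 := n1 + n2 + n3 + n4 with hL0
  have hp3 : PiNat.cylinder a3 L0 ⊆ U3 := (cylinder_anti' (by omega)).trans hn4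
  have hcM : PiNat.cylinder aM L0 ⊆ qM := (cylinder_anti' (by omega)).trans hn1
  have hcP : PiNat.cylinder aP L0 ⊆ qP := (cylinder_anti' (by omega)).trans hn2
  have hcC : PiNat.cylinder aC L0 ⊆ qC := (cylinder_anti' (by omega)).trans hn3
  -- a good point of the translation
  obtain ⟨⟨x₀, c₀⟩, ⟨⟨hx₀, hc₀⟩, -⟩, hE₀⟩ : ∃ p : Seq × Seq,
      p ∈ (PiNat.cylinder a3 L0 ×ˢ PiNat.cylinder aC L0) ∩
        (PiNat.cylinder a3 L0 ×ˢ PiNat.cylinder aC L0) ∧
      p ∉ (U3 ×ˢ qC) \ Edge b opC κ gC hC' iC jC :=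
    (ne_univ _).mono inter_subset_right |>.exists_mem_not
      ((PiNat.isOpen_cylinder _ _ _).prod (PiNat.isOpen_cylinder _ _ _))
      ⟨(a3, aC), PiNat.self_mem_cylinder _ _, PiNat.self_mem_cylinder _ _⟩ hEC
  replace hE₀ : (x₀, c₀) ∈ Edge b opC κ gC hC' iC jC := by
    by_contra hcon
    exact hE₀ ⟨⟨hp3 hx₀, hcC hc₀⟩, hcon⟩
  set u₀ : Seq := opC.T x₀ c₀ with hu₀
  set N := wpos L0 0 with hN
  have hNL : L0 ≤ N := by
    have := Nat.left_le_pair L0 0
    simp only [hN, wpos]; omega
  obtain ⟨M, K, hLM, hNM, huse⟩ := exists_use hE₀.1.1.1.2 hE₀.1.1.2 N L0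
  -- indices of the helpers
  let ι := Fin 4 ⊕ (Fin M → Bool)
  let kk := Fintype.card ι
  let e : ι ≃ Fin kk := Fintype.equivFin ι
  let center : (Fin M → Bool) → Seq := fun ξ i =>
    if i < L0 then aC i else if h : i < M then ξ ⟨i, h⟩ ^^ u₀ i else false
  let spec : ι → Col × Seq × ℕ := fun t => match t with
    | Sum.inl r => if r = 0 then (gM, Function.update aM L0 false, L0 + 1)
        else if r = 1 then (gM, Function.update aM L0 true, L0 + 1)
        else if r = 2 then (gP, Function.update aP L0 false, L0 + 1)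
        else (gP, Function.update aP L0 true, L0 + 1)
    | Sum.inr ξ => (gC, center ξ, M)
  let V : Fin kk → Set Seq := fun t =>
    PiNat.cylinder (spec (e.symm t)).2.1 (spec (e.symm t)).2.2
  let S : Fin kk → Set Seq := fun t => {y | Corr π b (spec (e.symm t)).1 y}
  set m₁ := e (Sum.inl 0) with hm₁
  set m₂ := e (Sum.inl 1) with hm₂
  set y₁ := e (Sum.inl 2) with hy₁
  set y₂ := e (Sum.inl 3) with hy₂
  have upd : ∀ (a : Seq) (v : Bool), PiNat.cylinder (Function.update a L0 v) (L0 + 1) ⊆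
      PiNat.cylinder a L0 := fun a v w hw i hi => by
    rw [hw i (by omega), Function.update_of_ne (by omega)]
  have hcenter : ∀ ξ, PiNat.cylinder (center ξ) M ⊆ PiNat.cylinder aC L0 := fun ξ w hw i hi => by
    rw [hw i (by omega)]; simp [center, hi]
  have hVsub : ∀ t, IsOpen (V t) ∧ (V t).Nonempty ∧ NE (S t) (V t) := by
    intro t
    refine ⟨PiNat.isOpen_cylinder _ _ _, ⟨_, PiNat.self_mem_cylinder _ _⟩, ?_⟩
    simp only [V, S, spec]
    cases e.symm t with
    | inl r =>
      simp only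
      split_ifs
      · exact hBM.subset ((upd aM _).trans hcM)
      · exact hBM.subset ((upd aM _).trans hcM)
      · exact hBP.subset ((upd aP _).trans hcP)
      · exact hBP.subset ((upd aP _).trans hcP)
    | inr ξ => exact hBC.subset ((hcenter ξ).trans hcC)
  have hVspec : ∀ (H : Fin kk → Seq), (∀ t, H t ∈ V t) →
      H m₁ ∈ PiNat.cylinder (Function.update aM L0 false) (L0 + 1) ∧
      H m₂ ∈ PiNat.cylinder (Function.update aM L0 true) (L0 + 1) ∧
      H y₁ ∈ PiNat.cylinder (Function.update aP L0 false) (L0 + 1) ∧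
      H y₂ ∈ PiNat.cylinder (Function.update aP L0 true) (L0 + 1) ∧
      ∀ ξ, H (e (Sum.inr ξ)) ∈ PiNat.cylinder (center ξ) M := by
    intro H hH
    have h0 := hH m₁; have h1 := hH m₂; have h2 := hH y₁; have h3 := hH y₂
    simp only [V, spec, hm₁, hm₂, hy₁, hy₂, Equiv.symm_apply_apply] at h0 h1 h2 h3
    refine ⟨h0, h1, h2, h3, fun ξ => ?_⟩
    have := hH (e (Sum.inr ξ))
    simpa only [V, spec, Equiv.symm_apply_apply] using this
  -- the exceptional set
  let start : Bool → Seq × (Fin kk → Seq) → Seq × (Fin kk → Seq) := fun v =>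
    if v = true then ratioMap opM m₁ m₂ else id
  let orbit : Bool → Bool → ℕ → Seq × (Fin kk → Seq) → Seq × (Fin kk → Seq) := fun v d n =>
    (if d = true then ratioMap opP y₁ y₂ else ratioMap opP y₂ y₁)^[n] ∘ start v
  let DM := (U1 ×ˢ qM) \ Edge b opM κ gM hM' iM jM
  let DP := (U2 ×ˢ qP) \ Edge b opP κ gP hP' iP jP
  let DC := (U3 ×ˢ qC) \ Edge b opC κ gC hC' iC jC
  let Bad : Set (Seq × (Fin kk → Seq)) :=
    ({q | (q.1, q.2 m₁) ∈ DM} ∪ {q | ((start true q).1, (start true q).2 m₂) ∈ DM}) ∪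
      ⋃ (v : Bool) (d : Bool) (n : ℕ) (t : Fin kk),
        ({q | ((orbit v d n q).1, (orbit v d n q).2 t) ∈ DP} ∪
          {q | ((orbit v d n q).1, (orbit v d n q).2 t) ∈ DC})
  have hstart : ∀ v, Continuous (start v) ∧ IsOpenMap (start v) := fun v => by
    cases v
    · exact ⟨continuous_id, IsOpenMap.id⟩
    · exact ⟨continuous_ratioMap _ _ _, isOpenMap_ratioMap _ _ _⟩
  have horbit : ∀ v d n, Continuous (orbit v d n) ∧ IsOpenMap (orbit v d n) := fun v d n => by
    constructor
    · refine (Continuous.iterate ?_ n).comp (hstart v).1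
      cases d <;> exact continuous_ratioMap _ _ _
    · refine (isOpenMap_iterate ?_ n).comp (hstart v).2
      cases d <;> exact isOpenMap_ratioMap _ _ _
  have hBad : IsMeagre Bad := by
    refine ((isMeagre_pullback continuous_id IsOpenMap.id m₁ hEM).union
      (isMeagre_pullback (hstart true).1 (hstart true).2 m₂ hEM)).union ?_
    refine isMeagre_iUnion fun v => isMeagre_iUnion fun d => isMeagre_iUnion fun n =>
      isMeagre_iUnion fun t => ?_
    exact (isMeagre_pullback (horbit v d n).1 (horbit v d n).2 t hEP).union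
      (isMeagre_pullback (horbit v d n).1 (horbit v d n).2 t hEC)
  refine ⟨PiNat.cylinder a3 L0, _, PiNat.isOpen_cylinder _ _ _,
    hp3.trans (hU3U.trans (hU2U.trans hU1U)), ⟨a3, PiNat.self_mem_cylinder _ _⟩,
    isMeagre_sections hBad, fun x hxA hx hxBad => ?_⟩
  simp only [Set.mem_ofPred_eq, not_not] at hxBad
  refine rd_of_jfin hVsub hxBad fun H hH hHbad => ?_
  obtain ⟨hm1c, hm2c, hy1c, hy2c, hξc⟩ := hVspec H fun t => (hH t).2
  have hS : ∀ t, Corr π b (spec t).1 (H (e t)) := fun t => by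
    have := (hH (e t)).1
    simpa only [S, Set.mem_ofPred_eq, Equiv.symm_apply_apply] using this
  have hagM : ∀ i < L0, H m₁ i = H m₂ i := fun i hi => by
    rw [(upd aM _ hm1c) i hi, (upd aM _ hm2c) i hi]
  have hagP : ∀ i < L0, H y₁ i = H y₂ i := fun i hi => by
    rw [(upd aP _ hy1c) i hi, (upd aP _ hy2c) i hi]
  have hL0M₁ : H m₁ L0 = false := by simpa using hm1c L0 (Nat.lt_succ_self _)
  have hL0M₂ : H m₂ L0 = true := by simpa using hm2c L0 (Nat.lt_succ_self _)
  have hL0P₁ : H y₁ L0 = false := by simpa using hy1c L0 (Nat.lt_succ_self _)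
  have hL0P₂ : H y₂ L0 = true := by simpa using hy2c L0 (Nat.lt_succ_self _)
  have hnot : ∀ v d n t, ((orbit v d n (x, H)).1, (orbit v d n (x, H)).2 t) ∉ DP ∧
      ((orbit v d n (x, H)).1, (orbit v d n (x, H)).2 t) ∉ DC := fun v d n t => by
    refine ⟨fun h => hHbad (Or.inr ?_), fun h => hHbad (Or.inr ?_)⟩ <;>
      simp only [mem_iUnion, mem_union, Set.mem_ofPred_eq]
    · exact ⟨v, d, n, t, Or.inl h⟩
    · exact ⟨v, d, n, t, Or.inr h⟩
  set x' := opM.ratio (H m₁) (H m₂) x with hx'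
  have hx'c : x' ∈ PiNat.cylinder a3 L0 :=
    ratio_cyl (fun _ _ x _ h => opM_ratio_eq x h) hagM hx
  have hMe₁ : (x, H m₁) ∈ Edge b opM κ gM hM' iM jM := by
    by_contra hcon
    exact hHbad (Or.inl (Or.inl ⟨⟨hU2U (hU3U (hp3 hx)), hcM (upd _ _ hm1c)⟩, hcon⟩))
  have hMe₂ : (x', H m₂) ∈ Edge b opM κ gM hM' iM jM := by
    by_contra hcon
    exact hHbad (Or.inl (Or.inr ⟨⟨hU2U (hU3U (hp3 hx'c)), hcM (upd _ _ hm2c)⟩, hcon⟩))
  -- the points visited
  have hvis : ∀ (v d : Bool) (n : ℕ),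
      let z := (if d = true then opP.ratio (H y₁) (H y₂) else opP.ratio (H y₂) (H y₁))^[n]
        (if v = true then x' else x)
      z ∈ PiNat.cylinder a3 L0 ∧ (z, H y₁) ∈ Edge b opP κ gP hP' iP jP ∧
        (z, H y₂) ∈ Edge b opP κ gP hP' iP jP ∧
        ∀ ξ, (z, H (e (Sum.inr ξ))) ∈ Edge b opC κ gC hC' iC jC := by
    intro v d n z
    have hz : z ∈ PiNat.cylinder a3 L0 := by
      show (if d = true then opP.ratio (H y₁) (H y₂) else opP.ratio (H y₂) (H y₁))^[n]
        (if v = true then x' else x) ∈ _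
      induction n with
      | zero => cases v <;> simpa
      | succ n ih =>
        rw [Function.iterate_succ_apply']
        cases d
        · exact ratio_cyl (fun _ _ x _ h => opP_ratio_eq x h)
            (fun i hi => (hagP i hi).symm) ih
        · exact ratio_cyl (fun _ _ x _ h => opP_ratio_eq x h) hagP ih
    have horb : orbit v d n (x, H) = (z, H) := by
      show (if d = true then ratioMap opP y₁ y₂ else ratioMap opP y₂ y₁)^[n] (start v (x, H)) = _
      cases v <;> cases d <;>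
        simp only [start, Bool.false_eq_true, if_false, if_true, id_eq, ratioMap_iterate,
          ratioMap] <;> rfl
    have h1 := hnot v d n y₁
    have h2 := hnot v d n y₂
    simp only [horb] at h1 h2
    refine ⟨hz, ?_, ?_, fun ξ => ?_⟩
    · by_contra hcon
      exact h1.1 ⟨⟨hU3U (hp3 hz), hcP (upd _ _ hy1c)⟩, hcon⟩
    · by_contra hcon
      exact h2.1 ⟨⟨hU3U (hp3 hz), hcP (upd _ _ hy2c)⟩, hcon⟩
    · have h3 := hnot v d n (e (Sum.inr ξ))
      simp only [horb] at h3
      by_contra hcon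
      exact h3.2 ⟨⟨hp3 hz, hcC (hcenter ξ (hξc ξ))⟩, hcon⟩
  -- codes for the helpers relative to the upper bound
  set O := join (cf b κ x) (π.F (jfin H)) with hO
  have hcode : ∀ t, ∃ c : Code, Comp c O (cf b (spec t).1 (H (e t))) := fun t =>
    (hS t).2.1.1.trans (((π.mono_iff _ _).2 (rd_jfin H (e t))).trans (rd_join_right _ _))
  choose code hcode using hcode
  let Ls : List (Code × Bool) := (Finset.univ : Finset (Fin M → Bool)).toList.map
    fun ξ => (code (Sum.inr ξ), H (e (Sum.inr ξ)) N)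
  let bit := bitDec iC hC'.2 (pre b K) K N Ls
  let sel : List Bool → ℕ → List Bool → List Bool := fun σ n st =>
    if n % 2 = 1 then iterL iP jP (n / 2 + 1) st (out (code (Sum.inl 2)) σ) (out (code (Sum.inl 3)) σ)
    else iterL iP jP (n / 2) st (out (code (Sum.inl 3)) σ) (out (code (Sum.inl 2)) σ)
  let st' : List Bool → List Bool := fun σ =>
    stepL iM jM (leftL σ) (out (code (Sum.inl 0)) σ) (out (code (Sum.inl 1)) σ)
  let G : List Bool → ℕ → Option Bool := fun σ n =>
    (bit σ (sel σ n (leftL σ))).bind fun a => (bit σ (sel σ n (st' σ))).map fun c => a ^^ c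
  have hsel : ∀ {f : List Bool → List Bool}, Primrec f →
      Primrec fun q : List Bool × ℕ => sel q.1 q.2 (f q.1) := by
    intro f hf
    exact Primrec.ite (Primrec.eq.comp (Primrec.nat_mod.comp Primrec.snd (Primrec.const 2))
        (Primrec.const 1))
      (primrec_iterL iP jP (Primrec.succ.comp (Primrec.nat_div.comp Primrec.snd (Primrec.const 2)))
        (hf.comp Primrec.fst) ((primrec_out _).comp Primrec.fst)
        ((primrec_out _).comp Primrec.fst))
      (primrec_iterL iP jP (Primrec.nat_div.comp Primrec.snd (Primrec.const 2))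
        (hf.comp Primrec.fst) ((primrec_out _).comp Primrec.fst)
        ((primrec_out _).comp Primrec.fst))
  have hG : Computable₂ G := by
    have hbit : Primrec₂ bit := primrec_bitDec _ _ _ _ _ _
    have hst : Primrec st' :=
      primrec_stepL iM jM primrec_leftL (primrec_out _) (primrec_out _)
    refine (Primrec.option_bind (hbit.comp Primrec.fst (hsel primrec_leftL)) ?_).to_comp
    exact (Primrec.option_map
      ((hbit.comp Primrec.fst (hsel hst)).comp Primrec.fst)
      ((Primrec.dom_bool₂ xor).comp (Primrec.snd.comp Primrec.fst) Primrec.snd).to₂).to₂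
  -- approximations
  have hP0 : Ap (fun s => leftL (pre O s)) (cf b κ x) := (ap_pre O).left
  have hQ : ∀ t, Ap (fun s => out (code t) (pre O s)) (cf b (spec t).1 (H (e t))) := fun t =>
    (ap_pre O).out (hcode t)
  have hP1 : Ap (fun s => st' (pre O s)) (cf b κ x') :=
    Ap.step hMe₁ hMe₂ hP0 (hQ (Sum.inl 0)) (hQ (Sum.inl 1))
  have hsel' : ∀ (v : Bool) (n : ℕ) (P : ℕ → List Bool),
      Ap P (cf b κ (if v = true then x' else x)) →
      ∃ z, (∀ ξ, (z, H (e (Sum.inr ξ))) ∈ Edge b opC κ gC hC' iC jC) ∧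
        z ∈ PiNat.cylinder a3 L0 ∧ z N = (if v = true then x' else x) (wpos L0 n) ∧
        Ap (fun s => sel (pre O s) n (P s)) (cf b κ z) := by
    intro v n P hP
    by_cases hn : n % 2 = 1
    · refine ⟨_, (hvis v true (n / 2 + 1)).2.2.2, (hvis v true (n / 2 + 1)).1, ?_, ?_⟩
      · simp only [if_true, hN, opP_iterate, hL0P₁, hL0P₂, iterate_forward]
        rw [show 2 * (n / 2) + 1 = n by omega]
      · simp only [sel, hn, if_true]
        exact Ap.iterate (fun k => (hvis v true k).2.1) (fun k => (hvis v true k).2.2.1) hP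
          (hQ (Sum.inl 2)) (hQ (Sum.inl 3)) (n / 2 + 1)
    · refine ⟨_, (hvis v false (n / 2)).2.2.2, (hvis v false (n / 2)).1, ?_, ?_⟩
      · simp only [Bool.false_eq_true, if_false, hN, opP_iterate, hL0P₁, hL0P₂, iterate_backward]
        rw [show 2 * (n / 2) = n by omega]
      · simp only [sel, hn, if_false]
        exact Ap.iterate (fun k => (hvis v false k).2.2.1) (fun k => (hvis v false k).2.1) hP
          (hQ (Sum.inl 3)) (hQ (Sum.inl 2)) (n / 2)
  have hbit : ∀ (z : Seq) (P : ℕ → List Bool),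
      (∀ ξ, (z, H (e (Sum.inr ξ))) ∈ Edge b opC κ gC hC' iC jC) →
      z ∈ PiNat.cylinder a3 L0 → Ap P (cf b κ z) →
      (∀ s v, bit (pre O s) (P s) = some v → v = z N) ∧
      ∀ᶠ s in atTop, bit (pre O s) (P s) ≠ none := by
    intro z P hz hzc hP
    have hU' : ∀ ξ, Ap (fun s => out iC (joinL (P s) (out (code (Sum.inr ξ)) (pre O s))))
        (cf b hC' (opC.T z (H (e (Sum.inr ξ))))) := fun ξ =>
      (hP.join (hQ (Sum.inr ξ))).out (hz ξ).1.2
    refine ⟨fun s v hv => ?_, ?_⟩
    · have := List.mem_of_mem_head? (Option.mem_def.2 hv)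
      simp only [Ls, List.mem_filterMap, List.mem_map, Option.map_eq_some_iff] at this
      obtain ⟨q, ⟨ξ, -, rfl⟩, w, hw, rfl⟩ := this
      have hdh := (hz ξ).1.1.2
      have := ev_isPre hdh ((((hU' ξ).1 s).take K).join (isPre_pre b K)) hw
      rw [this]
      show ((z N ^^ H (e (Sum.inr ξ)) N) ^^ H (e (Sum.inr ξ)) N) = z N
      cases z N <;> cases H (e (Sum.inr ξ)) N <;> rfl
    · let ξ : Fin M → Bool := fun i => z i
      filter_upwards [(hU' ξ).2 K] with s hs hnone
      have hu : pre (opC.T z (H (e (Sum.inr ξ)))) M = pre u₀ M := pre_eq_iff.2 fun i hi => by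
        have hc := hξc ξ i hi
        show (z i ^^ H (e (Sum.inr ξ)) i) = u₀ i
        rw [hc]
        by_cases hiL : i < L0
        · simp only [center, hiL, if_true, hu₀]
          show _ = (x₀ i ^^ c₀ i)
          rw [hzc i hiL, show x₀ i = a3 i from hx₀ i hiL, show c₀ i = aC i from hc₀ i hiL]
        · simp only [center, hiL, if_false, dif_pos hi, ξ]
          cases z i <;> cases u₀ i <;> rfl
      have := huse _ (hz ξ).1.1.1.2 hu _ ((hU' ξ).1 s) hs
      simp only [bit, bitDec, List.head?_eq_none_iff, List.filterMap_eq_nil_iff] at hnone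
      have h2 := hnone (code (Sum.inr ξ), H (e (Sum.inr ξ)) N)
        (List.mem_map.2 ⟨ξ, Finset.mem_toList.2 (Finset.mem_univ _), rfl⟩)
      rw [this] at h2
      simp at h2
  have hlane : ∀ n, evens x n = (x (wpos L0 n) ^^ x' (wpos L0 n)) := fun n => by
    rw [hx', opM_ratio_odd, hL0M₁, hL0M₂]
    simp only [evens]
    cases x (wpos L0 n) <;> cases x (2 * n) <;> rfl
  have hmain : Rd (evens x) O := by
    obtain ⟨c, hc⟩ := exists_code_of_search hG
    refine ⟨c, hc _ _ (fun s n v hv => ?_) (fun n => ?_)⟩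
    · obtain ⟨z, hz, hzc, hzN, hzP⟩ := hsel' false n _ hP0
      obtain ⟨z', hz', hzc', hzN', hzP'⟩ := hsel' true n _ hP1
      simp only [G, Option.bind_eq_some_iff, Option.map_eq_some_iff] at hv
      obtain ⟨a, ha, c', hc', rfl⟩ := hv
      rw [(hbit z _ hz hzc hzP).1 s a ha, (hbit z' _ hz' hzc' hzP').1 s c' hc', hzN, hzN', hlane]
      rfl
    · obtain ⟨z, hz, hzc, -, hzP⟩ := hsel' false n _ hP0
      obtain ⟨z', hz', hzc', -, hzP'⟩ := hsel' true n _ hP1
      obtain ⟨s, h1, h2⟩ := ((hbit z _ hz hzc hzP).2.and (hbit z' _ hz' hzc' hzP').2).exists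
      refine ⟨s, ?_⟩
      obtain ⟨a, ha⟩ := Option.ne_none_iff_exists'.1 h1
      obtain ⟨a', ha'⟩ := Option.ne_none_iff_exists'.1 h2
      simp only [G, ha, ha', Option.bind_some, Option.map_some]
      simp
  have hfin : Rd (evens x) (π.F (join x (jfin H))) :=
    hmain.trans ((((hA x hxA).2.1.1.trans (rd_join_left _ _)).join (rd_join_right _ _)).trans
      (π.map_join _ _).2)
  exact ((π.mono_iff _ _).1 ((π.F_inv _).1.trans hfin))

lemma ne_image_homeo {X Y : Type*} [TopologicalSpace X] [TopologicalSpace Y] (e : X ≃ₜ Y)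
    {A U : Set X} (h : NE A U) : NE (e '' A) (e '' U) := by
  intro V hV hVU hne hm
  obtain ⟨y, hy⟩ := hne
  obtain ⟨z, hz, rfl⟩ := hVU hy
  refine h (e ⁻¹' V) (hV.preimage e.continuous) (fun w hw => ?_) ⟨z, hy⟩ ?_
  · obtain ⟨w', hw', hww⟩ := hVU hw
    exact e.injective hww ▸ hw'
  · have hsub : A ∩ e ⁻¹' V ⊆ e ⁻¹' (e '' A ∩ V) := fun w hw =>
      ⟨mem_image_of_mem e hw.1, hw.2⟩
    exact (hm.preimage_of_isOpenMap e.continuous e.isOpenMap).mono hsub

/-- Pairing of sequences as a homeomorphism. -/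
def joinHomeo : Seq × Seq ≃ₜ Seq where
  toFun p := join p.1 p.2
  invFun x := (evens x, fun i => x (2 * i + 1))
  left_inv p := by
    refine Prod.ext (funext fun i => ?_) (funext fun i => ?_) <;> simp [evens]
  right_inv x := funext fun i => by
    simp only [join, evens]
    split_ifs <;> congr 1 <;> omega
  continuous_toFun := continuous_join
  continuous_invFun := (continuous_pi fun i => continuous_apply (2 * i)).prodMk
    (continuous_pi fun i => continuous_apply (2 * i + 1))

lemma isMeagre_not_inv_below (π : Auto) : IsMeagre {Z | ¬ Rd (π.inv Z) Z} := by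
  obtain ⟨b, hb⟩ := exists_parameter π
  by_contra hQ
  set Q := {Z | ¬ Rd (π.inv Z) Z} with hQdef
  let cyl : List Bool → Set Seq := fun l => {g | pre g l.length = l}
  let B : Col × List Bool → Set Seq := fun t =>
    {Z | (cyl t.2).Nonempty ∧ NE {W | Corr π b t.1 (join Z W)} (cyl t.2)}
  obtain ⟨t, ht⟩ := exists_not_isMeagre_of_cover (B := B) hQ (fun Z _ => by
    obtain ⟨κ, V, hV, -, ⟨W0, hW0⟩, hNE⟩ := (ne_univ (univ : Set Seq)).pigeon
      (B := fun κ => {W | Corr π b κ (join Z W)}) isOpen_univ univ_nonempty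
      (fun W _ => mem_iUnion.2 (exists_corr π hb (join Z W)))
    obtain ⟨m, hm⟩ := exists_cyl_subset hV hW0
    refine mem_iUnion.2 ⟨(κ, pre W0 m), ⟨W0, by simp [cyl]⟩, ?_⟩
    refine (hNE.subset ((fun g hg => ?_) : cyl (pre W0 m) ⊆ V)).mono fun W hW => hW.1.2
    simp only [cyl, pre_length, Set.mem_ofPred_eq] at hg
    exact hm (pre_eq_iff.1 hg))
  obtain ⟨UZ, hUZ, hUZne, hQ'⟩ := exists_ne ht
  obtain ⟨κ, l⟩ := t
  have hUW : IsOpen (cyl l) := isOpen_pre _ fun r => r = l
  have hlne : (cyl l).Nonempty := by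
    obtain ⟨Z, hZ, -⟩ := hQ'.nonempty hUZ hUZne
    exact hZ.2.1
  have hprod := hQ'.prod (S := fun Z => {W | Corr π b κ (join Z W)}) (V := cyl l)
    fun Z hZ => hZ.2.2
  have hNE := ne_image_homeo joinHomeo hprod
  set A := joinHomeo '' {p : Seq × Seq | p.1 ∈ Q ∩ B (κ, l) ∧ Corr π b κ (join p.1 p.2)}
  obtain ⟨U', M₀, hU', hU'U, hU'ne, hM₀, hloc⟩ := exists_meagre_local π hb (κ := κ) (A := A)
    (by rintro x ⟨p, hp, rfl⟩; exact hp.2)
    (joinHomeo.isOpenMap _ (hUZ.prod hUW)) ((hUZne.prod hlne).image _) hNE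
  obtain ⟨x1, hx1⟩ := hU'ne
  obtain ⟨⟨Z1, W1⟩, rfl⟩ := joinHomeo.surjective x1
  obtain ⟨Ua, Va, hUa, hVa, hZ1, hW1, hsub⟩ :=
    isOpen_prod_iff.1 (hU'.preimage joinHomeo.continuous) Z1 W1 hx1
  have hin : ∀ Z ∈ Ua, ∀ W ∈ Va, (Z, W) ∈ UZ ×ˢ cyl l := fun Z hZ W hW => by
    obtain ⟨p, hp, hpe⟩ := hU'U (hsub (mk_mem_prod hZ hW))
    exact joinHomeo.injective hpe ▸ hp
  obtain ⟨Z, ⟨hZQ, hZUa⟩, hZsec⟩ :=
    (hQ'.subset (fun Z hZ => (hin Z hZ W1 hW1).1)).exists_mem_not hUa ⟨Z1, hZ1⟩
      (isMeagre_sections (hM₀.preimage_of_isOpenMap joinHomeo.continuous joinHomeo.isOpenMap))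
  simp only [Set.mem_ofPred_eq, not_not] at hZsec
  have hW : NE {W | Corr π b κ (join Z W)} Va :=
    hZQ.2.2.subset fun W hW => (hin Z hZUa W hW).2
  refine hZQ.1 (rd_of_not_isMeagre fun hm => ?_)
  refine (hW.diff hZsec) Va hVa subset_rfl ⟨W1, hW1⟩ (hm.mono ?_)
  rintro W ⟨⟨hWc, hWM⟩, hWV⟩
  have := hloc (joinHomeo (Z, W)) ⟨(Z, W), ⟨hZQ, hWc⟩, rfl⟩
    (hsub (mk_mem_prod hZUa hWV)) hWM
  have he : evens (joinHomeo (Z, W)) = Z := funext fun i => join_even Z W i
  rwa [he] at this

/-- Every automorphism of the Turing degrees is the identity. -/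
theorem auto_eqv_id (π : Auto) : ∀ X, Eqv (π.F X) X := by
  have hgood : ∀ᶠ Z in residual Seq, Eqv (π.F Z) Z := by
    have h1 : ∀ᶠ Z in residual Seq, Rd (π.inv Z) Z := by
      have := isMeagre_not_inv_below π
      filter_upwards [this] with Z hZ
      simpa using hZ
    have h2 : ∀ᶠ Z in residual Seq, Rd (π.symm.inv Z) Z := by
      have := isMeagre_not_inv_below π.symm
      filter_upwards [this] with Z hZ
      simpa using hZ
    filter_upwards [h1, h2] with Z hZ hZ'
    refine ⟨?_, (π.F_inv Z).2.trans ((π.mono_iff _ _).2 hZ)⟩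
    have h3 : Eqv (π.symm.inv Z) (π.F Z) :=
      ((π.F_inv _).symm).trans (π.congr (π.symm.F_inv Z))
    exact h3.2.trans hZ'
  intro a
  have key : ∀ ρ : Auto, (∀ᶠ Z in residual Seq, Eqv (ρ.F Z) Z) → Rd (ρ.F a) a := by
    intro ρ hρ
    let sh : Seq ≃ₜ Seq :=
      { toFun := fun g i => g i ^^ a i
        invFun := fun g i => g i ^^ a i
        left_inv := fun g => funext fun i => by
          show ((g i ^^ a i) ^^ a i) = g i
          cases g i <;> cases a i <;> rfl
        right_inv := fun g => funext fun i => by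
          show ((g i ^^ a i) ^^ a i) = g i
          cases g i <;> cases a i <;> rfl
        continuous_toFun := continuous_pi fun i =>
          (continuous_of_discreteTopology (f := fun v : Bool => v ^^ a i)).comp (continuous_apply i)
        continuous_invFun := continuous_pi fun i =>
          (continuous_of_discreteTopology (f := fun v : Bool => v ^^ a i)).comp
            (continuous_apply i) }
    have h2 : ∀ᶠ g in residual Seq, Eqv (ρ.F (sh g)) (sh g) :=
      (tendsto_residual_of_isOpenMap sh.continuous sh.isOpenMap).eventually hρ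
    refine rd_of_not_isMeagre fun hm => ?_
    obtain ⟨g, ⟨h1g, h2g⟩, hg⟩ := (dense_of_mem_residual ((hρ.and h2).and
      (show ∀ᶠ g in residual Seq, g ∈ {g : Seq | Rd (ρ.F a) (join a g)}ᶜ from hm))).nonempty
    refine hg ?_
    have ha : Rd a (join g (sh g)) := rd_of_xor a g
    refine ((ρ.mono_iff _ _).2 ha).trans ((ρ.map_join _ _).1.trans ?_)
    exact (h1g.1.trans (rd_join_right a g)).join
      (h2g.1.trans (rd_xor (rd_join_right a g) (rd_join_left a g)))
  refine ⟨key π hgood, (π.F_inv a).2.trans ((π.mono_iff _ _).2 (key π.symm ?_))⟩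
  filter_upwards [hgood] with Z hZ
  exact (π.symm.congr hZ.symm).trans (π.inv_F Z)

end Vale.Agent.P327
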